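import Mathlib

/-!
From a fractional cover supported on sets of size at least `s` to an integral cover,
losing `O(log (2 ℓ / s))`, where `ℓ` bounds the minimal members.

A state is a subset `U` of a member with conditional cost `w g U σ ≥ 1`.  Either a
random set-valued walk inside `U` certifies `U` cheaply, or some `Y ⊆ U` of at most
half the size has `w g Y (σ + ζ) ≥ 1`; after `L` halvings `U` is so small that a
single part `S ∩ U` is a cheap certificate.
-/

open Finset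

namespace Vale.Agent.P034

variable {α : Type*} [Fintype α] [DecidableEq α]

/-- Conditional cost of `g` given `U`, at density `σ`. -/
noncomputable def w (g : Finset α → ℝ) (U : Finset α) (σ : ℝ) : ℝ :=
  ∑ S, g S * σ ^ (S \ U).card

/-- Conditional weight of revealing exactly `R` outside `Y`. -/
noncomputable def A (g : Finset α → ℝ) (σ : ℝ) (Y R : Finset α) : ℝ :=
  ∑ S, if R ⊆ S \ Y then g S * σ ^ ((S \ Y).card - R.card) else 0

/-- Normaliser of a step from `Y`. -/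
noncomputable def N (g : Finset α → ℝ) (σ ζ : ℝ) (Y : Finset α) : ℝ :=
  w g Y (σ + ζ) - w g Y σ

/-- Sets from which the walk continues. -/
def Live (u : ℕ) (Y : Finset α) : Prop := Y.Nonempty ∧ Y.card < u

instance (u : ℕ) (Y : Finset α) : Decidable (Live u Y) := inferInstanceAs (Decidable (_ ∧ _))

/-- Weight of reaching `V` by the walk, divided by `ζ ^ |V|`. -/
noncomputable def Q (g : Finset α → ℝ) (σ ζ : ℝ) (u : ℕ) (V : Finset α) : ℝ :=
  A g σ ∅ V + ∑ Y ∈ V.ssubsets.attach,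
    if Live u Y.1 then Q g σ ζ u Y.1 * (A g σ Y.1 (V \ Y.1) / N g σ ζ Y.1) else 0
termination_by V.card
decreasing_by exact card_lt_card (Finset.mem_ssubsets.1 Y.2)

variable {g : Finset α → ℝ}

lemma w_nonneg (hg : ∀ S, 0 ≤ g S) {U : Finset α} {σ : ℝ} (hσ : 0 ≤ σ) : 0 ≤ w g U σ :=
  sum_nonneg fun S _ => mul_nonneg (hg S) (pow_nonneg hσ _)

lemma w_mono (hg : ∀ S, 0 ≤ g S) (U : Finset α) {σ τ : ℝ} (hσ : 0 ≤ σ) (h : σ ≤ τ) :
    w g U σ ≤ w g U τ :=
  sum_le_sum fun S _ => mul_le_mul_of_nonneg_left (pow_le_pow_left₀ hσ h _) (hg S)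

lemma A_nonneg (hg : ∀ S, 0 ≤ g S) {σ : ℝ} (hσ : 0 ≤ σ) (Y R : Finset α) : 0 ≤ A g σ Y R :=
  sum_nonneg fun S _ => by split_ifs <;> [exact mul_nonneg (hg S) (pow_nonneg hσ _); rfl]

lemma A_empty (σ : ℝ) (Y : Finset α) : A g σ Y ∅ = w g Y σ := by
  simp [A, w]

lemma N_nonneg (hg : ∀ S, 0 ≤ g S) {σ ζ : ℝ} (hσ : 0 ≤ σ) (hζ : 0 ≤ ζ) (Y : Finset α) :
    0 ≤ N g σ ζ Y := sub_nonneg.2 (w_mono hg Y hσ (by linarith))

lemma sum_powerset_A (σ ζ : ℝ) (Y : Finset α) :
    ∑ R ∈ Yᶜ.powerset, ζ ^ R.card * A g σ Y R = w g Y (σ + ζ) := by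
  unfold A w
  simp only [mul_sum, mul_ite, mul_zero]
  rw [sum_comm]
  refine sum_congr rfl fun S _ => ?_
  rw [← sum_filter]
  have hf : (Yᶜ.powerset.filter fun R => R ⊆ S \ Y) = (S \ Y).powerset := by
    ext R
    simp only [mem_filter, mem_powerset, subset_iff, mem_sdiff, mem_compl]
    exact ⟨fun h => h.2, fun h => ⟨fun x hx => (h hx).2, h⟩⟩
  rw [hf, add_comm σ ζ, ← sum_pow_mul_eq_add_pow, mul_sum]
  exact sum_congr rfl fun R _ => by ring

lemma sum_step (σ ζ : ℝ) (Y : Finset α) :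
    ∑ R ∈ Yᶜ.powerset.erase ∅, ζ ^ R.card * A g σ Y R = N g σ ζ Y := by
  rw [sum_erase_eq_sub (empty_mem_powerset _), sum_powerset_A, A_empty]
  simp [N]

lemma w_le_sum (hg : ∀ S, 0 ≤ g S) {σ : ℝ} (hσ : 0 ≤ σ) {Y U : Finset α} (hYU : Y ⊆ U) :
    w g U σ ≤ ∑ R ∈ (U \ Y).powerset, A g σ Y R := by
  unfold A w
  rw [sum_comm]
  refine sum_le_sum fun S _ => ?_
  have hsub : (S ∩ U) \ Y ⊆ S \ Y := sdiff_subset_sdiff inter_subset_left subset_rfl
  refine le_trans (le_of_eq ?_) (single_le_sum (f := fun R =>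
      if R ⊆ S \ Y then g S * σ ^ ((S \ Y).card - R.card) else 0)
    (fun R _ => ?_) (a := (S ∩ U) \ Y) ?_)
  · rw [if_pos hsub, ← card_sdiff_of_subset hsub]
    congr 3
    ext x
    simp only [mem_sdiff, mem_inter]
    constructor
    · rintro ⟨hS, hU⟩
      exact ⟨⟨hS, fun hY => hU (hYU hY)⟩, fun h => hU h.1.2⟩
    · rintro ⟨⟨hS, hY⟩, h⟩
      exact ⟨hS, fun hU => h ⟨⟨hS, hU⟩, hY⟩⟩
  · split_ifs <;> [exact mul_nonneg (hg S) (pow_nonneg hσ _); rfl]
  · exact mem_powerset.2 (sdiff_subset_sdiff inter_subset_right subset_rfl)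

lemma Q_eq (σ ζ : ℝ) (u : ℕ) (V : Finset α) :
    Q g σ ζ u V = A g σ ∅ V + ∑ Y ∈ V.ssubsets,
      if Live u Y then Q g σ ζ u Y * (A g σ Y (V \ Y) / N g σ ζ Y) else 0 := by
  rw [Q]
  congr 1
  exact sum_attach V.ssubsets
    (fun Y => if Live u Y then Q g σ ζ u Y * (A g σ Y (V \ Y) / N g σ ζ Y) else 0)

lemma Q_nonneg (hg : ∀ S, 0 ≤ g S) {σ ζ : ℝ} (hσ : 0 ≤ σ) (hζ : 0 ≤ ζ) (u : ℕ)
    (V : Finset α) : 0 ≤ Q g σ ζ u V := by
  induction V using Finset.strongInduction with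
  | _ V ih =>
    rw [Q_eq]
    refine add_nonneg (A_nonneg hg hσ _ _) (sum_nonneg fun Y hY => ?_)
    split_ifs
    · exact mul_nonneg (ih Y (mem_ssubsets.1 hY))
        (div_nonneg (A_nonneg hg hσ _ _) (N_nonneg hg hσ hζ _))
    · rfl

omit [Fintype α] in
lemma sum_flip (U : Finset α) (f : Finset α → Finset α → ℝ) (u : ℕ) :
    ∑ V ∈ U.powerset.erase ∅, ∑ Y ∈ V.ssubsets, (if Live u Y then f Y (V \ Y) else 0)
      = ∑ Y ∈ U.powerset.filter (Live u), ∑ R ∈ (U \ Y).powerset.erase ∅, f Y R := by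
  simp only [← sum_filter]
  rw [sum_sigma', sum_sigma']
  refine sum_nbij' (fun x => ⟨x.2, x.1 \ x.2⟩) (fun x => ⟨x.1 ∪ x.2, x.1⟩) ?_ ?_ ?_ ?_ ?_
  · rintro ⟨V, Y⟩ h
    simp only [mem_sigma, mem_filter, mem_erase, mem_powerset, mem_ssubsets] at h ⊢
    obtain ⟨⟨-, hVU⟩, hYV, hY⟩ := h
    refine ⟨⟨hYV.subset.trans hVU, hY⟩, ?_, sdiff_subset_sdiff hVU subset_rfl⟩
    rw [Ne, sdiff_eq_empty_iff_subset]
    exact fun h => hYV.2 h
  · rintro ⟨Y, R⟩ h
    simp only [mem_sigma, mem_filter, mem_erase, mem_powerset, mem_ssubsets] at h ⊢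
    obtain ⟨⟨hYU, hY⟩, hR, hRU⟩ := h
    obtain ⟨x, hx⟩ := nonempty_iff_ne_empty.2 hR
    have hxY : x ∉ Y := (mem_sdiff.1 (hRU hx)).2
    exact ⟨⟨ne_empty_of_mem (mem_union_right _ hx),
      union_subset hYU (hRU.trans sdiff_subset)⟩,
      ⟨subset_union_left, fun h => hxY (h (mem_union_right _ hx))⟩, hY⟩
  · rintro ⟨V, Y⟩ h
    simp only [mem_sigma, mem_filter, mem_ssubsets] at h
    simp [union_sdiff_of_subset h.2.1.subset]
  · rintro ⟨Y, R⟩ h
    simp only [mem_sigma, mem_erase, mem_powerset, mem_filter] at h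
    have hd : Disjoint Y R := (disjoint_sdiff.mono_right h.2.2)
    simp [union_sdiff_cancel_left hd]
  · rintro ⟨V, Y⟩ -
    rfl

/-- Total weight of the sets at which the walk stops. -/
lemma stop_le (hg : ∀ S, 0 ≤ g S) {σ ζ : ℝ} (hσ : 0 ≤ σ) (hζ : 0 < ζ) (u : ℕ) :
    ∑ V ∈ ((univ : Finset α).powerset.erase ∅).filter (fun V => u ≤ V.card),
      ζ ^ V.card * Q g σ ζ u V ≤ w g ∅ (σ + ζ) - w g ∅ σ := by
  have hQ := fun V => Q_nonneg hg hσ hζ.le u (V := V)
  have hstep := sum_step (g := g) σ ζ (∅ : Finset α)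
  rw [compl_empty] at hstep
  change _ ≤ N g σ ζ ∅
  rw [← hstep]
  have hall : ∑ V ∈ (univ : Finset α).powerset.erase ∅, ζ ^ V.card * Q g σ ζ u V
      = ∑ V ∈ (univ : Finset α).powerset.erase ∅, ζ ^ V.card * A g σ ∅ V
        + ∑ Y ∈ (univ : Finset α).powerset.filter (Live u), ∑ R ∈ (univ \ Y).powerset.erase ∅,
            ζ ^ Y.card * Q g σ ζ u Y * (ζ ^ R.card * A g σ Y R / N g σ ζ Y) := by
    rw [← sum_flip (univ : Finset α)
      (fun Y R => ζ ^ Y.card * Q g σ ζ u Y * (ζ ^ R.card * A g σ Y R / N g σ ζ Y)) u,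
      ← sum_add_distrib]
    refine sum_congr rfl fun V _ => ?_
    conv_lhs => rw [Q_eq, mul_add, mul_sum]
    congr 1
    refine sum_congr rfl fun Y hY => ?_
    split_ifs
    · rw [← card_sdiff_add_card_eq_card (mem_ssubsets.1 hY).subset, pow_add]
      ring
    · ring
  have hbd : ∀ Y : Finset α, ∑ R ∈ (univ \ Y).powerset.erase ∅,
      ζ ^ Y.card * Q g σ ζ u Y * (ζ ^ R.card * A g σ Y R / N g σ ζ Y)
      ≤ ζ ^ Y.card * Q g σ ζ u Y := by
    intro Y
    rw [← mul_sum, ← sum_div, ← compl_eq_univ_sdiff, sum_step]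
    exact mul_le_of_le_one_right (mul_nonneg (pow_nonneg hζ.le _) (hQ Y))
      (div_self_le_one _)
  have hsplit : ∑ V ∈ (univ : Finset α).powerset.erase ∅, ζ ^ V.card * Q g σ ζ u V
      = ∑ V ∈ ((univ : Finset α).powerset.erase ∅).filter (fun V => u ≤ V.card),
          ζ ^ V.card * Q g σ ζ u V
        + ∑ V ∈ (univ : Finset α).powerset.filter (Live u), ζ ^ V.card * Q g σ ζ u V := by
    rw [← sum_filter_add_sum_filter_not _ (fun V : Finset α => u ≤ V.card)]
    congr 2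
    ext V
    simp only [mem_filter, mem_erase, not_le, Live, nonempty_iff_ne_empty]
    tauto
  have hle := sum_le_sum (fun Y (_ : Y ∈ (univ : Finset α).powerset.filter (Live u)) => hbd Y)
  linarith

/-- Inside a good state some set carrying much weight is reached. -/
lemma exists_reached (hg : ∀ S, 0 ≤ g S) {σ ζ : ℝ} (hσ : 0 ≤ σ) (hζ : 0 ≤ ζ) {u : ℕ}
    (U : Finset α) (hgood : ∀ Y, Y ⊆ U → Live u Y →
      0 < N g σ ζ Y ∧ N g σ ζ Y ≤ ∑ R ∈ (U \ Y).powerset.erase ∅, A g σ Y R) :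
    w g U σ - w g ∅ σ ≤
      ∑ V ∈ (U.powerset.erase ∅).filter (fun V => u ≤ V.card), Q g σ ζ u V := by
  have hQ := fun V => Q_nonneg hg hσ hζ u (V := V)
  have hfirst : w g U σ - w g ∅ σ ≤ ∑ V ∈ U.powerset.erase ∅, A g σ ∅ V := by
    have h := w_le_sum hg hσ (empty_subset U)
    rw [sdiff_empty] at h
    rw [sum_erase_eq_sub (empty_mem_powerset _), A_empty]
    linarith
  have hall : ∑ V ∈ U.powerset.erase ∅, Q g σ ζ u V
      = ∑ V ∈ U.powerset.erase ∅, A g σ ∅ V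
        + ∑ Y ∈ U.powerset.filter (Live u), ∑ R ∈ (U \ Y).powerset.erase ∅,
            Q g σ ζ u Y * (A g σ Y R / N g σ ζ Y) := by
    rw [← sum_flip U (fun Y R => Q g σ ζ u Y * (A g σ Y R / N g σ ζ Y)) u, ← sum_add_distrib]
    exact sum_congr rfl fun V _ => Q_eq σ ζ u V
  have hbd : ∀ Y ∈ U.powerset.filter (Live u), Q g σ ζ u Y ≤
      ∑ R ∈ (U \ Y).powerset.erase ∅, Q g σ ζ u Y * (A g σ Y R / N g σ ζ Y) := by
    intro Y hY
    obtain ⟨hYU, hl⟩ := mem_filter.1 hY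
    obtain ⟨h1, h2⟩ := hgood Y (mem_powerset.1 hYU) hl
    rw [← mul_sum, ← sum_div]
    exact le_mul_of_one_le_right (hQ Y) ((one_le_div h1).2 h2)
  have hsplit : ∑ V ∈ U.powerset.erase ∅, Q g σ ζ u V
      = ∑ V ∈ (U.powerset.erase ∅).filter (fun V => u ≤ V.card), Q g σ ζ u V
        + ∑ V ∈ U.powerset.filter (Live u), Q g σ ζ u V := by
    rw [← sum_filter_add_sum_filter_not _ (fun V : Finset α => u ≤ V.card)]
    congr 2
    ext V
    simp only [mem_filter, mem_erase, not_le, Live, nonempty_iff_ne_empty]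
    tauto
  have hle := sum_le_sum hbd
  linarith

/-- Failure of goodness at `Y` moves the state to `(Y, σ + ζ)`. -/
lemma w_le_of_fail (hg : ∀ S, 0 ≤ g S) {σ ζ : ℝ} (hσ : 0 ≤ σ) (hζ : 0 < ζ) {Y U : Finset α}
    (hYU : Y ⊆ U)
    (h : ¬ (0 < N g σ ζ Y ∧ N g σ ζ Y ≤ ∑ R ∈ (U \ Y).powerset.erase ∅, A g σ Y R)) :
    w g U σ ≤ w g Y (σ + ζ) := by
  have h1 : w g U σ ≤ w g Y σ + ∑ R ∈ (U \ Y).powerset.erase ∅, A g σ Y R := by
    have := w_le_sum hg hσ hYU
    rw [sum_erase_eq_sub (empty_mem_powerset _), A_empty]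
    linarith
  have h2 : ∑ R ∈ (U \ Y).powerset.erase ∅, A g σ Y R ≤ N g σ ζ Y := by
    rcases lt_or_ge 0 (N g σ ζ Y) with hp | hz
    · exact (lt_of_not_ge fun hc => h ⟨hp, hc⟩).le
    · have hN : N g σ ζ Y = 0 := le_antisymm hz (N_nonneg hg hσ hζ.le Y)
      have hst := sum_step (g := g) σ ζ Y
      rw [hN, sum_eq_zero_iff_of_nonneg fun R _ =>
        mul_nonneg (pow_nonneg hζ.le _) (A_nonneg hg hσ Y R)] at hst
      rw [hN]
      refine le_of_eq (sum_eq_zero fun R hR => ?_)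
      have hR' : R ∈ Yᶜ.powerset.erase ∅ := by
        simp only [mem_erase, mem_powerset] at hR ⊢
        exact ⟨hR.1, fun x hx => mem_compl.2 (mem_sdiff.1 (hR.2 hx)).2⟩
      exact (mul_eq_zero.1 (hst R hR')).resolve_left (pow_ne_zero _ hζ.ne')
  unfold N at h2
  linarith

lemma w_empty_scale (hg : ∀ S, 0 ≤ g S) {s : ℕ} (hs : ∀ S, g S ≠ 0 → s ≤ S.card)
    {p c : ℝ} (hp : 0 ≤ p) (hc0 : 0 ≤ c) (hc1 : c ≤ 1) :
    w g ∅ (c * p) ≤ c ^ s * w g ∅ p := by
  unfold w
  rw [mul_sum]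
  refine sum_le_sum fun S _ => ?_
  by_cases h : g S = 0
  · simp [h]
  rw [sdiff_empty, mul_pow]
  calc g S * (c ^ S.card * p ^ S.card) ≤ g S * (c ^ s * p ^ S.card) :=
        mul_le_mul_of_nonneg_left
          (mul_le_mul_of_nonneg_right (pow_le_pow_of_le_one hc0 hc1 (hs S h))
            (pow_nonneg hp _)) (hg S)
    _ = _ := by ring

/-- Following the halving steps always ends at a certificate. -/
lemma descend (hg : ∀ S, 0 ≤ g S) {ℓ s L : ℕ} (hs : 0 < s) (hL : ℓ < s * 2 ^ L)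
    {ζ b : ℝ} (hζ : 0 < ζ) (hb : ∀ m, m ≤ L → w g ∅ ((m : ℝ) * ζ) ≤ b) (hb2 : b ≤ 1 / 2) :
    ∀ (j : ℕ) (U : Finset α) (m : ℕ), m + j = L → U.card * 2 ^ m ≤ ℓ →
      1 ≤ w g U ((m : ℝ) * ζ) →
      (∃ R, R.Nonempty ∧ R ⊆ U ∧ 1 ≤ A g ((L : ℝ) * ζ) ∅ R * 2 ^ (s + 1)) ∨
      ∃ V m' u, V ⊆ U ∧ m' < L ∧ 1 ≤ u ∧ u ≤ V.card ∧
        1 ≤ 8 ^ V.card * Q g ((m' : ℝ) * ζ) ζ u V := by
  have hsmall : ∀ (U : Finset α) (m : ℕ), m ≤ L → U.card ≤ s →
      1 ≤ w g U ((m : ℝ) * ζ) →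
      ∃ R, R.Nonempty ∧ R ⊆ U ∧ 1 ≤ A g ((L : ℝ) * ζ) ∅ R * 2 ^ (s + 1) := by
    intro U m hm hU hw
    have hσ : (0 : ℝ) ≤ (L : ℝ) * ζ := by positivity
    have h1 : 1 ≤ w g U ((L : ℝ) * ζ) := hw.trans (w_mono hg U (by positivity)
      (mul_le_mul_of_nonneg_right (Nat.cast_le.2 hm) hζ.le))
    have h2 := w_le_sum hg hσ (empty_subset U)
    rw [sdiff_empty] at h2
    have h3 : (1 : ℝ) / 2 ≤ ∑ R ∈ U.powerset.erase ∅, A g ((L : ℝ) * ζ) ∅ R := by
      rw [sum_erase_eq_sub (empty_mem_powerset _), A_empty]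
      linarith [hb L le_rfl]
    by_contra hne
    have h4 : ∑ R ∈ U.powerset.erase ∅, A g ((L : ℝ) * ζ) ∅ R * 2 ^ (s + 1)
        < ∑ R ∈ U.powerset.erase ∅, (1 : ℝ) := by
      refine sum_lt_sum_of_nonempty ?_ fun R hR => ?_
      · by_contra he
        rw [not_nonempty_iff_eq_empty] at he
        rw [he, sum_empty] at h3
        linarith
      · simp only [mem_erase, mem_powerset] at hR
        exact lt_of_not_ge fun hc => hne ⟨R, nonempty_iff_ne_empty.2 hR.1, hR.2, hc⟩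
    rw [← sum_mul, sum_const, nsmul_one] at h4
    have h5 : ((U.powerset.erase ∅).card : ℝ) ≤ 2 ^ s := by
      calc ((U.powerset.erase ∅).card : ℝ) ≤ (U.powerset.card : ℝ) :=
            Nat.cast_le.2 (card_le_card (erase_subset _ _))
        _ = 2 ^ U.card := by simp
        _ ≤ 2 ^ s := pow_le_pow_right₀ (by norm_num) hU
    have h6 : (2 : ℝ) ^ s = 1 / 2 * 2 ^ (s + 1) := by ring
    nlinarith [pow_pos (by norm_num : (0 : ℝ) < 2) (s + 1)]
  intro j
  induction j with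
  | zero =>
    intro U m hm hU hw
    refine Or.inl (hsmall U m (by omega) ?_ hw)
    obtain rfl : m = L := by omega
    exact (Nat.lt_of_mul_lt_mul_right (hU.trans_lt hL)).le
  | succ j ih =>
    intro U m hm hU hw
    by_cases hk : U.card ≤ s
    · exact Or.inl (hsmall U m (by omega) hk hw)
    set σ : ℝ := (m : ℝ) * ζ with hσdef
    have hσ : 0 ≤ σ := by positivity
    set u := (U.card + 1) / 2 with hudef
    have hu : 1 ≤ u := by omega
    by_cases hgood : ∀ Y, Y ⊆ U → Live u Y →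
        0 < N g σ ζ Y ∧ N g σ ζ Y ≤ ∑ R ∈ (U \ Y).powerset.erase ∅, A g σ Y R
    · right
      have h1 := exists_reached hg hσ hζ.le U hgood
      have h2 : w g ∅ σ ≤ 1 / 2 := (hb m (by omega)).trans hb2
      by_contra hne
      set T := (U.powerset.erase ∅).filter (fun V => u ≤ V.card) with hT
      have h3 : ∀ V ∈ T, Q g σ ζ u V * 2 ^ (U.card + 1) < 1 := by
        intro V hV
        simp only [hT, mem_filter, mem_erase, mem_powerset] at hV
        have hlt : 8 ^ V.card * Q g σ ζ u V < 1 := lt_of_not_ge fun hc =>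
          hne ⟨V, m, u, hV.1.2, by omega, hu, hV.2, hc⟩
        refine lt_of_le_of_lt ?_ hlt
        rw [mul_comm]
        refine mul_le_mul_of_nonneg_right ?_ (Q_nonneg hg hσ hζ.le u V)
        calc (2 : ℝ) ^ (U.card + 1) ≤ 2 ^ (3 * V.card) :=
              pow_le_pow_right₀ (by norm_num) (by omega)
          _ = 8 ^ V.card := by rw [pow_mul]; norm_num
      have hne' : T.Nonempty := by
        by_contra he
        rw [not_nonempty_iff_eq_empty] at he
        rw [he, sum_empty] at h1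
        linarith
      have h4 := sum_lt_sum_of_nonempty hne' h3
      rw [← sum_mul, sum_const, nsmul_one] at h4
      have h5 : (T.card : ℝ) ≤ 2 ^ U.card := by
        calc (T.card : ℝ) ≤ (U.powerset.card : ℝ) :=
              Nat.cast_le.2 (card_le_card ((filter_subset _ _).trans (erase_subset _ _)))
          _ = 2 ^ U.card := by simp
      have h6 : (2 : ℝ) ^ U.card = 1 / 2 * 2 ^ (U.card + 1) := by ring
      nlinarith [pow_pos (by norm_num : (0 : ℝ) < 2) (U.card + 1)]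
    · push_neg at hgood
      obtain ⟨Y, hYU, hlive, hbad⟩ := hgood
      have hmove := w_le_of_fail hg hσ hζ hYU (fun h => absurd h.2 (not_le.2 (hbad h.1)))
      have h2Y : Y.card * 2 ≤ U.card := by have := hlive.2; omega
      have hsig : σ + ζ = ((m + 1 : ℕ) : ℝ) * ζ := by push_cast; rw [hσdef]; ring
      rw [hsig] at hmove
      have hsize : Y.card * 2 ^ (m + 1) ≤ ℓ := by
        calc Y.card * 2 ^ (m + 1) = Y.card * 2 * 2 ^ m := by ring
          _ ≤ U.card * 2 ^ m := Nat.mul_le_mul_right _ h2Y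
          _ ≤ ℓ := hU
      rcases ih Y (m + 1) (by omega) hsize (hw.trans hmove) with
        ⟨R, h1, h2, h3⟩ | ⟨V, m', u', h1, h2⟩
      · exact Or.inl ⟨R, h1, h2.trans hYU, h3⟩
      · exact Or.inr ⟨V, m', u', h1.trans hYU, h2⟩

/-- Integral cover from a fractional cover supported on sets of size at least `s`. -/
theorem exists_cover (F : Finset (Finset α)) (g : Finset α → ℝ) (ℓ s : ℕ) (hs : 0 < s)
    (hg : ∀ S, 0 ≤ g S) (hsupp : ∀ S, g S ≠ 0 → s ≤ S.card)
    (hmin : ∀ H ∈ F, ∃ H' ∈ F, H' ⊆ H ∧ H'.card ≤ ℓ)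
    (hcov : ∀ H ∈ F, 1 ≤ ∑ S ∈ H.powerset, g S)
    (p : ℝ) (hp : 0 ≤ p) (hcost : ∑ S, g S * p ^ S.card ≤ 1 / 2) :
    ∃ G : Finset (Finset α), (∀ H ∈ F, ∃ S ∈ G, S ⊆ H) ∧
      ∑ S ∈ G, (p / (1024 * (Nat.log 2 (ℓ / s) + 1 : ℕ))) ^ S.card ≤ 1 / 2 := by
  classical
  set L := Nat.log 2 (ℓ / s) + 1 with hLdef
  rcases hp.lt_or_eq with hp0 | rfl
  swap
  · refine ⟨F, fun H hH => ⟨H, hH, subset_rfl⟩, ?_⟩
    rw [sum_eq_zero]
    · norm_num
    intro H hH
    rw [zero_div]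
    refine zero_pow fun hc => ?_
    rw [card_eq_zero] at hc
    have h1 := hcov H hH
    have h0 : g ∅ = 0 := by
      by_contra h
      have := hsupp _ h
      simp at this
      omega
    rw [hc, powerset_empty, sum_singleton, h0] at h1
    linarith
  have hLpos : (0 : ℝ) < L := by positivity
  have hL : ℓ < s * 2 ^ L := by
    have := Nat.lt_pow_succ_log_self (b := 2) one_lt_two (ℓ / s)
    rwa [Nat.div_lt_iff_lt_mul hs, mul_comm] at this
  set ζ : ℝ := p / (16 * L) with hζdef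
  have hζ : 0 < ζ := by positivity
  set q : ℝ := p / (1024 * L) with hqdef
  have hq : 0 ≤ q := by positivity
  have hqζ : q * 64 = ζ := by rw [hqdef, hζdef]; field_simp; norm_num
  have hLζ : (L : ℝ) * ζ = 1 / 16 * p := by rw [hζdef]; field_simp
  have hwp : w g ∅ p ≤ 1 / 2 := by simpa [w] using hcost
  have hbase : ∀ m, m ≤ L → w g ∅ ((m : ℝ) * ζ) ≤ 1 / 32 := by
    intro m hm
    calc w g ∅ ((m : ℝ) * ζ) ≤ w g ∅ (1 / 16 * p) := w_mono hg ∅ (by positivity)
          (by rw [← hLζ]; exact mul_le_mul_of_nonneg_right (Nat.cast_le.2 hm) hζ.le)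
      _ ≤ (1 / 16) ^ s * w g ∅ p := w_empty_scale hg hsupp hp (by norm_num) (by norm_num)
      _ ≤ (1 / 16) ^ 1 * (1 / 2) := mul_le_mul
          (pow_le_pow_of_le_one (by norm_num) (by norm_num) hs) hwp (w_nonneg hg hp)
          (by norm_num)
      _ = 1 / 32 := by norm_num
  -- the certificates
  let P₁ : Finset α → Prop := fun R =>
    R.Nonempty ∧ 1 ≤ A g ((L : ℝ) * ζ) ∅ R * 2 ^ (s + 1)
  let P₂ : Finset α → Prop := fun V => ∃ m u, m < L ∧ 1 ≤ u ∧ u ≤ V.card ∧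
    1 ≤ 8 ^ V.card * Q g ((m : ℝ) * ζ) ζ u V
  refine ⟨univ.filter (fun V => P₁ V ∨ P₂ V), ?_, ?_⟩
  · intro H hH
    obtain ⟨H', hH', hsub, hcard⟩ := hmin H hH
    have hw : 1 ≤ w g H' (((0 : ℕ) : ℝ) * ζ) := by
      refine (hcov H' hH').trans ?_
      unfold w
      refine le_trans (le_of_eq ?_) (sum_le_sum_of_subset_of_nonneg (subset_univ H'.powerset)
        fun S _ _ => mul_nonneg (hg S) (by positivity))
      refine sum_congr rfl fun S hS => ?_
      simp [sdiff_eq_empty_iff_subset.2 (mem_powerset.1 hS)]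
    rcases descend hg hs hL hζ hbase (by norm_num) L H' 0 (by omega)
        (by simpa using hcard) hw with ⟨R, h1, h2, h3⟩ | ⟨V, m, u, h1, h2⟩
    · exact ⟨R, by simp [P₁, h1, h3], h2.trans hsub⟩
    · exact ⟨V, mem_filter.2 ⟨mem_univ _, Or.inr ⟨m, u, h2⟩⟩, h1.trans hsub⟩
  · set n := Fintype.card α
    let t₁ : Finset α → ℝ := fun R => 2 ^ (s + 1) * (q ^ R.card * A g ((L : ℝ) * ζ) ∅ R)
    let t₂ : ℕ → ℕ → Finset α → ℝ := fun m u V =>
      if V ≠ ∅ ∧ u ≤ V.card then (1 / 2) ^ u * (1 / 4) *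
        (ζ ^ V.card * Q g ((m : ℝ) * ζ) ζ u V) else 0
    have ht₁ : ∀ R, 0 ≤ t₁ R := fun R =>
      mul_nonneg (by positivity) (mul_nonneg (by positivity)
        (A_nonneg hg (by positivity) _ _))
    have ht₂ : ∀ m u V, 0 ≤ t₂ m u V := by
      intro m u V
      simp only [t₂]
      split_ifs
      · exact mul_nonneg (by positivity)
          (mul_nonneg (by positivity) (Q_nonneg hg (by positivity) hζ.le u V))
      · rfl
    have hpoint : ∀ V ∈ univ.filter (fun V => P₁ V ∨ P₂ V),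
        q ^ V.card ≤ t₁ V + ∑ m ∈ range L, ∑ u ∈ Icc 1 n, t₂ m u V := by
      intro V hV
      rcases (mem_filter.1 hV).2 with ⟨-, h⟩ | ⟨m, u, hm, hu, huV, h⟩
      · refine le_add_of_le_of_nonneg ?_
          (sum_nonneg fun m _ => sum_nonneg fun u _ => ht₂ m u V)
        calc q ^ V.card ≤ q ^ V.card * (A g ((L : ℝ) * ζ) ∅ V * 2 ^ (s + 1)) :=
              le_mul_of_one_le_right (by positivity) h
          _ = t₁ V := by simp only [t₁]; ring
      · refine le_add_of_nonneg_of_le (ht₁ V) ?_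
        refine le_trans ?_ ((single_le_sum (f := fun u => t₂ m u V) (fun u _ => ht₂ m u V)
          (mem_Icc.2 ⟨hu, huV.trans (card_le_univ V)⟩)).trans
          (single_le_sum (f := fun m => ∑ u ∈ Icc 1 n, t₂ m u V)
            (fun m _ => sum_nonneg fun u _ => ht₂ m u V) (mem_range.2 hm)))
        have hne : V ≠ ∅ := fun hc => by simp [hc] at huV; omega
        simp only [t₂, if_pos (And.intro hne huV)]
        have hQ := Q_nonneg hg (σ := (m : ℝ) * ζ) (by positivity) hζ.le u V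
        calc q ^ V.card ≤ q ^ V.card * (8 ^ V.card * Q g ((m : ℝ) * ζ) ζ u V) :=
              le_mul_of_one_le_right (by positivity) h
          _ = (1 / 8) ^ V.card * (ζ ^ V.card * Q g ((m : ℝ) * ζ) ζ u V) := by
              rw [← mul_assoc, ← mul_assoc, ← mul_pow, ← mul_pow, ← hqζ]
              ring_nf
          _ ≤ _ := by
              refine mul_le_mul_of_nonneg_right ?_ (mul_nonneg (by positivity) hQ)
              calc (1 / 8 : ℝ) ^ V.card ≤ (1 / 8) ^ u :=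
                    pow_le_pow_of_le_one (by norm_num) (by norm_num) huV
                _ = (1 / 2) ^ u * (1 / 4) ^ u := by rw [← mul_pow]; norm_num
                _ ≤ (1 / 2) ^ u * (1 / 4) := mul_le_mul_of_nonneg_left
                    (pow_le_of_le_one (by norm_num) (by norm_num) (by omega)) (by positivity)
    refine (sum_le_sum hpoint).trans ((sum_le_univ_sum_of_nonneg fun V =>
      add_nonneg (ht₁ V) (sum_nonneg fun m _ => sum_nonneg fun u _ => ht₂ m u V)).trans ?_)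
    rw [sum_add_distrib]
    have h1 : ∑ R, t₁ R ≤ 1 / 4 := by
      simp only [t₁]
      rw [← mul_sum]
      have hall : ∑ R, q ^ R.card * A g ((L : ℝ) * ζ) ∅ R = w g ∅ ((L : ℝ) * ζ + q) := by
        rw [← sum_powerset_A (g := g) ((L : ℝ) * ζ) q ∅, compl_empty, powerset_univ]
      rw [hall]
      have hq16 : q ≤ 1 / 16 * p := by
        have h1L : (1 : ℝ) ≤ L := by exact_mod_cast (by omega : 1 ≤ L)
        rw [hqdef, div_le_iff₀ (by positivity)]
        nlinarith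
      calc 2 ^ (s + 1) * w g ∅ ((L : ℝ) * ζ + q) ≤ 2 ^ (s + 1) * w g ∅ (1 / 8 * p) := by
            refine mul_le_mul_of_nonneg_left (w_mono hg ∅ (by positivity) ?_) (by positivity)
            linarith
        _ ≤ 2 ^ (s + 1) * ((1 / 8) ^ s * (1 / 2)) := by
            refine mul_le_mul_of_nonneg_left ?_ (by positivity)
            exact (w_empty_scale hg hsupp hp (by norm_num) (by norm_num)).trans
              (mul_le_mul_of_nonneg_left hwp (by positivity))
        _ = (1 / 4) ^ s := by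
            have h4 : (2 : ℝ) ^ s * (1 / 8) ^ s = (1 / 4) ^ s := by rw [← mul_pow]; norm_num
            rw [pow_succ, ← h4]; ring
        _ ≤ 1 / 4 := pow_le_of_le_one (by norm_num) (by norm_num) hs.ne'
    have h2 : ∑ V, ∑ m ∈ range L, ∑ u ∈ Icc 1 n, t₂ m u V ≤ 1 / 4 := by
      rw [sum_comm]
      calc ∑ m ∈ range L, ∑ V, ∑ u ∈ Icc 1 n, t₂ m u V
          ≤ ∑ m ∈ range L, (∑ u ∈ Icc 1 n, (1 / 2 : ℝ) ^ u) * (1 / 4) *
              (w g ∅ (((m + 1 : ℕ) : ℝ) * ζ) - w g ∅ ((m : ℝ) * ζ)) := by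
            refine sum_le_sum fun m _ => ?_
            rw [sum_comm, sum_mul, sum_mul]
            refine sum_le_sum fun u _ => ?_
            simp only [t₂]
            rw [← sum_filter, ← mul_sum]
            refine mul_le_mul_of_nonneg_left ?_ (by positivity)
            refine le_trans (le_of_eq (sum_congr ?_ fun _ _ => rfl))
              ((stop_le hg (σ := (m : ℝ) * ζ) (by positivity) hζ u).trans (le_of_eq ?_))
            · ext V; simp
            · push_cast; ring_nf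
        _ ≤ 2 * (1 / 4) * (1 / 32) := by
            rw [← mul_sum, sum_range_sub (fun m : ℕ => w g ∅ ((m : ℝ) * ζ))]
            have hs2 : ∑ u ∈ Icc 1 n, (1 / 2 : ℝ) ^ u ≤ 2 :=
              (sum_le_sum_of_subset_of_nonneg (fun u hu => mem_range.2 (by
                have := (mem_Icc.1 hu).2; omega : u < n + 1))
                (fun u _ _ => by positivity)).trans (sum_geometric_two_le _)
            have ha := hbase L le_rfl
            have hb' : (0 : ℝ) ≤ w g ∅ (((0 : ℕ) : ℝ) * ζ) := w_nonneg hg (by positivity)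
            have hmono : w g ∅ (((0 : ℕ) : ℝ) * ζ) ≤ w g ∅ ((L : ℝ) * ζ) :=
              w_mono hg ∅ (by positivity) (by simp; positivity)
            refine mul_le_mul (mul_le_mul_of_nonneg_right hs2 (by norm_num))
              (le_trans (sub_le_self _ hb') ha) (sub_nonneg.2 hmono) (by norm_num)
        _ ≤ 1 / 4 := by norm_num
    linarith

end Vale.Agent.P034
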