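import Mathlib
import Vale.Agent.P034.Ladder

/-!
Integral covers by sampling with alteration.

The sets `Z` that are irreducible for the conditional cost have total cost at most
`exp (4 ℓ ^ 2)`.  So one may sample fragments with multiplicity of order `ℓ ^ 2` and add the
missed irreducible sets themselves, which gives a constant loss once the supports have size at
least `log ℓ`.  Iterating this with the walk from `Ladder` gives a loss of order `log* ℓ`.
-/

open Finset

namespace Vale.Agent.P034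

/-- Derandomised sampling with alteration. -/
lemma exists_alter {β ι : Type*} [DecidableEq β] (D : Finset β) (c π : β → ℝ)
    (Z : Finset ι) (inc : β → ι → Prop) [∀ b i, Decidable (inc b i)]
    (h0 : ∀ b, 0 ≤ π b) (h1 : ∀ b, π b ≤ 1) :
    ∀ d : ι → ℝ, ∃ W ⊆ D,
      ∑ b ∈ W, c b + ∑ i ∈ Z, (if ∀ b ∈ W, ¬ inc b i then d i else 0) ≤
        ∑ b ∈ D, π b * c b + ∑ i ∈ Z, d i * ∏ b ∈ D.filter (inc · i), (1 - π b) := by
  classical
  induction D using Finset.induction with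
  | empty => intro d; exact ⟨∅, subset_rfl, by simp⟩
  | @insert r D hr ih =>
    intro d
    obtain ⟨W, hW, hle⟩ := ih (fun i => d i * (if inc r i then 1 - π r else 1))
    have hrW : r ∉ W := fun h => hr (hW h)
    set X₀ := ∑ b ∈ W, c b + ∑ i ∈ Z, (if ∀ b ∈ W, ¬ inc b i then d i else 0) with hX₀
    set X₁ := ∑ b ∈ insert r W, c b +
      ∑ i ∈ Z, (if ∀ b ∈ insert r W, ¬ inc b i then d i else 0) with hX₁
    have hmix : (1 - π r) * X₀ + π r * X₁ = π r * c r + (∑ b ∈ W, c b +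
        ∑ i ∈ Z, (if ∀ b ∈ W, ¬ inc b i then d i * (if inc r i then 1 - π r else 1) else 0)) := by
      rw [hX₀, hX₁, sum_insert hrW]
      simp only [mul_add, mul_sum]
      have : ∀ i, (1 - π r) * (if ∀ b ∈ W, ¬ inc b i then d i else 0) +
          π r * (if ∀ b ∈ insert r W, ¬ inc b i then d i else 0) =
          (if ∀ b ∈ W, ¬ inc b i then d i * (if inc r i then 1 - π r else 1) else 0) := by
        intro i
        by_cases hm : ∀ b ∈ W, ¬ inc b i
        · rw [if_pos hm, if_pos hm]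
          by_cases hi : inc r i
          · rw [if_neg (fun h => h r (mem_insert_self r W) hi), if_pos hi]; ring
          · rw [if_pos (fun b hb => by
              rcases mem_insert.1 hb with rfl | hb'
              exacts [hi, hm b hb']), if_neg hi]
            ring
        · rw [if_neg hm, if_neg hm, if_neg fun h => hm fun b hb => h b (mem_insert_of_mem hb)]
          ring
      simp only [← this, sum_add_distrib, ← mul_sum]
      ring
    have hprod : ∀ i, d i * ∏ b ∈ (insert r D).filter (inc · i), (1 - π b) =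
        d i * (if inc r i then 1 - π r else 1) * ∏ b ∈ D.filter (inc · i), (1 - π b) := by
      intro i
      rw [filter_insert]
      split_ifs with hi
      · rw [prod_insert (fun h => hr (mem_filter.1 h).1)]; ring
      · ring
    have hR : (1 - π r) * X₀ + π r * X₁ ≤ ∑ b ∈ insert r D, π b * c b +
        ∑ i ∈ Z, d i * ∏ b ∈ (insert r D).filter (inc · i), (1 - π b) := by
      rw [hmix, sum_insert hr, sum_congr rfl fun i _ => hprod i]
      linarith
    rcases le_total X₀ X₁ with h | h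
    · exact ⟨W, hW.trans (subset_insert _ _), le_trans (by nlinarith [h0 r]) hR⟩
    · exact ⟨insert r W, insert_subset_insert r hW, le_trans (by nlinarith [h1 r]) hR⟩

variable {α : Type*} [Fintype α] [DecidableEq α] {g : Finset α → ℝ}

lemma w_ge_powerset (hg : ∀ S, 0 ≤ g S) (H : Finset α) {σ : ℝ} (hσ : 0 ≤ σ) :
    ∑ S ∈ H.powerset, g S ≤ w g H σ := by
  unfold w
  refine le_trans (le_of_eq ?_) (sum_le_sum_of_subset_of_nonneg (subset_univ H.powerset)
    fun S _ _ => mul_nonneg (hg S) (pow_nonneg hσ _))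
  refine sum_congr rfl fun S hS => ?_
  simp [sdiff_eq_empty_iff_subset.2 (mem_powerset.1 hS)]

/-- The irreducible states of size at most `ℓ`. -/
noncomputable def irred (g : Finset α → ℝ) (ℓ : ℕ) (σ : ℝ) : Finset (Finset α) :=
  univ.filter fun Z => Z.card ≤ ℓ ∧ 3 / 4 ≤ w g Z σ ∧
    ∀ Y, Y ⊂ Z → w g Y σ ≤ 1 ∧ 1 / (4 * ℓ) ≤ w g Z σ - w g Y σ

lemma exists_irred {ℓ : ℕ} (hℓ : 0 < ℓ) {σ : ℝ} (H : Finset α) (hH : H.card ≤ ℓ)
    (hw : 1 ≤ w g H σ) : ∃ Z ∈ irred g ℓ σ, Z ⊆ H := by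
  classical
  set δ : ℝ := 1 / (4 * ℓ) with hδ
  have hδ0 : 0 < δ := by positivity
  have hδℓ : δ * ℓ = 1 / 4 := by rw [hδ]; field_simp
  set C := H.powerset.filter fun Z => 1 - δ * ((ℓ : ℝ) - Z.card) ≤ w g Z σ with hC
  have hne : C.Nonempty := by
    refine ⟨H, mem_filter.2 ⟨mem_powerset_self H, ?_⟩⟩
    have : (H.card : ℝ) ≤ ℓ := Nat.cast_le.2 hH
    nlinarith
  obtain ⟨Z, hZ, hmin⟩ := exists_min_image C Finset.card hne
  obtain ⟨hZH, hZw⟩ := mem_filter.1 hZ
  rw [mem_powerset] at hZH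
  refine ⟨Z, mem_filter.2 ⟨mem_univ _, (card_le_card hZH).trans hH, ?_, fun Y hY => ?_⟩, hZH⟩
  · nlinarith [mul_nonneg hδ0.le (Nat.cast_nonneg (α := ℝ) Z.card)]
  · have hlt : w g Y σ < 1 - δ * ((ℓ : ℝ) - Y.card) := by
      by_contra hc
      exact absurd (hmin Y (mem_filter.2 ⟨mem_powerset.2 (hY.subset.trans hZH), le_of_not_gt hc⟩))
        (not_le.2 (card_lt_card hY))
    have h1 : (Y.card : ℝ) + 1 ≤ Z.card := by exact_mod_cast card_lt_card hY
    have h2 : (Z.card : ℝ) ≤ ℓ := Nat.cast_le.2 ((card_le_card hZH).trans hH)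
    constructor
    · nlinarith
    · rw [← hδ]; nlinarith

/-- Sets from all of whose proper subsets a step of weight `δ` is possible have small total
cost. -/
lemma sum_closed_le (hg : ∀ S, 0 ≤ g S) {t m : ℕ} (hsupp : ∀ S, g S ≠ 0 → S.card ≤ t)
    {σ B δ : ℝ} (hσ : 0 ≤ σ) (hB : 0 ≤ B) (hδ : 0 < δ) (C : Finset (Finset α))
    (hcard : ∀ Z ∈ C, Z.card ≤ m)
    (hC : ∀ Z ∈ C, ∀ Y, Y ⊂ Z →
      w g Y σ ≤ B ∧ δ ≤ ∑ R ∈ (Z \ Y).powerset.erase ∅, A g σ Y R) :
    ∑ Z ∈ C, σ ^ Z.card ≤ (2 ^ t * B / δ + 1) ^ m := by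
  classical
  set D : ℝ := 2 ^ t * B / δ + 1 with hD
  have hD1 : 1 ≤ D := by
    have : (0 : ℝ) ≤ 2 ^ t * B / δ := by positivity
    linarith
  suffices h : ∀ (k : ℕ) (Y : Finset α), m ≤ Y.card + k →
      ∑ Z ∈ C.filter (Y ⊆ ·), σ ^ (Z \ Y).card ≤ D ^ k by
    simpa using h m ∅ (by simp)
  intro k
  induction k with
  | zero =>
    intro Y hY
    refine (sum_le_sum_of_subset_of_nonneg (t := {Y}) ?_ fun _ _ _ => pow_nonneg hσ _).trans
      (by simp)
    intro Z hZ
    obtain ⟨hZ, hYZ⟩ := mem_filter.1 hZ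
    have hc := hcard Z hZ
    rw [mem_singleton]
    exact (eq_of_subset_of_card_le hYZ (by omega)).symm
  | succ k ih =>
    intro Y hY
    set P := C.filter (Y ⊂ ·) with hP
    have hsplit : ∑ Z ∈ C.filter (Y ⊆ ·), σ ^ (Z \ Y).card ≤
        1 + ∑ Z ∈ P, σ ^ (Z \ Y).card := by
      have hsub : C.filter (Y ⊆ ·) ⊆ insert Y P := by
        intro Z hZ
        obtain ⟨hZ, hYZ⟩ := mem_filter.1 hZ
        rcases eq_or_ne Y Z with rfl | hne
        · exact mem_insert_self _ _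
        · exact mem_insert_of_mem (mem_filter.2 ⟨hZ, hYZ.ssubset_of_ne hne⟩)
      refine (sum_le_sum_of_subset_of_nonneg hsub fun _ _ _ => pow_nonneg hσ _).trans ?_
      rw [sum_insert (fun h => (mem_filter.1 h).2.ne rfl)]
      simp
    have hP' : ∑ Z ∈ P, σ ^ (Z \ Y).card ≤ 2 ^ t * B / δ * D ^ k := by
      rcases P.eq_empty_or_nonempty with he | ⟨Z₀, hZ₀⟩
      · rw [he, sum_empty]; positivity
      have hYB : w g Y σ ≤ B := (hC Z₀ (mem_filter.1 hZ₀).1 Y (mem_filter.1 hZ₀).2).1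
      have hN : N g σ σ Y ≤ 2 ^ t * B := by
        have h2 : w g Y (σ + σ) ≤ 2 ^ t * w g Y σ := by
          unfold w
          rw [mul_sum]
          refine sum_le_sum fun S _ => ?_
          by_cases h : g S = 0
          · simp [h]
          rw [← two_mul, mul_pow]
          calc g S * (2 ^ (S \ Y).card * σ ^ (S \ Y).card)
              ≤ g S * (2 ^ t * σ ^ (S \ Y).card) := mul_le_mul_of_nonneg_left
                (mul_le_mul_of_nonneg_right (pow_le_pow_right₀ (by norm_num)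
                  ((card_le_card sdiff_subset).trans (hsupp S h))) (pow_nonneg hσ _)) (hg S)
            _ = _ := by ring
        have h3 : (2 : ℝ) ^ t * w g Y σ ≤ 2 ^ t * B :=
          mul_le_mul_of_nonneg_left hYB (by positivity)
        have := w_nonneg hg (U := Y) hσ
        unfold N
        linarith
      have hkey : δ * ∑ Z ∈ P, σ ^ (Z \ Y).card ≤ N g σ σ Y * D ^ k := by
        rw [← sum_step (g := g) σ σ Y, sum_mul, mul_sum]
        calc ∑ Z ∈ P, δ * σ ^ (Z \ Y).card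
            ≤ ∑ Z ∈ P, σ ^ (Z \ Y).card *
                ∑ R ∈ (Z \ Y).powerset.erase ∅, A g σ Y R := by
              refine sum_le_sum fun Z hZ => ?_
              rw [mul_comm]
              exact mul_le_mul_of_nonneg_left
                (hC Z (mem_filter.1 hZ).1 Y (mem_filter.1 hZ).2).2 (pow_nonneg hσ _)
          _ = ∑ Z ∈ P, ∑ R ∈ Yᶜ.powerset.erase ∅,
                (if R ⊆ Z then σ ^ (Z \ Y).card * A g σ Y R else 0) := by
              refine sum_congr rfl fun Z _ => ?_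
              rw [mul_sum, ← sum_filter]
              refine sum_congr ?_ fun _ _ => rfl
              ext R
              simp only [mem_filter, mem_erase, mem_powerset, subset_sdiff]
              constructor
              · rintro ⟨h1, h2, h3⟩
                exact ⟨⟨h1, fun x hx => mem_compl.2 (disjoint_left.1 h3 hx)⟩, h2⟩
              · rintro ⟨⟨h1, h2⟩, h3⟩
                exact ⟨h1, h3, disjoint_left.2 fun x hx => mem_compl.1 (h2 hx)⟩
          _ = ∑ R ∈ Yᶜ.powerset.erase ∅, ∑ Z ∈ P,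
                (if R ⊆ Z then σ ^ (Z \ Y).card * A g σ Y R else 0) := sum_comm
          _ ≤ ∑ R ∈ Yᶜ.powerset.erase ∅, σ ^ R.card * A g σ Y R * D ^ k := by
              refine sum_le_sum fun R hR => ?_
              simp only [mem_erase, mem_powerset] at hR
              have hdis : Disjoint Y R :=
                disjoint_right.2 fun x hx => mem_compl.1 (hR.2 hx)
              have hRY : (Y ∪ R).card = Y.card + R.card := card_union_of_disjoint hdis
              have hRpos : 0 < R.card := card_pos.2 (nonempty_iff_ne_empty.2 hR.1)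
              rw [← sum_filter]
              calc ∑ Z ∈ P.filter (R ⊆ ·), σ ^ (Z \ Y).card * A g σ Y R
                  = σ ^ R.card * A g σ Y R *
                      ∑ Z ∈ P.filter (R ⊆ ·), σ ^ (Z \ (Y ∪ R)).card := by
                    rw [mul_sum]
                    refine sum_congr rfl fun Z hZ => ?_
                    obtain ⟨hZP, hRZ⟩ := mem_filter.1 hZ
                    have hu : Y ∪ R ⊆ Z := union_subset (mem_filter.1 hZP).2.subset hRZ
                    rw [card_sdiff_of_subset (mem_filter.1 hZP).2.subset,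
                      card_sdiff_of_subset hu, hRY, mul_right_comm, ← pow_add]
                    have := card_le_card hu
                    congr 2
                    omega
                _ ≤ _ := by
                    refine mul_le_mul_of_nonneg_left ?_
                      (mul_nonneg (pow_nonneg hσ _) (A_nonneg hg hσ _ _))
                    refine le_trans ?_ (ih (Y ∪ R) (by omega))
                    refine sum_le_sum_of_subset_of_nonneg ?_ fun _ _ _ => pow_nonneg hσ _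
                    intro Z hZ
                    obtain ⟨hZP, hRZ⟩ := mem_filter.1 hZ
                    exact mem_filter.2
                      ⟨(mem_filter.1 hZP).1, union_subset (mem_filter.1 hZP).2.subset hRZ⟩
      rw [div_mul_eq_mul_div, le_div_iff₀ hδ, mul_comm _ δ]
      refine hkey.trans (mul_le_mul_of_nonneg_right hN ?_)
      exact pow_nonneg (zero_le_one.trans hD1) k
    have h1k : (1 : ℝ) ≤ D ^ k := one_le_pow₀ hD1
    calc _ ≤ 1 + ∑ Z ∈ P, σ ^ (Z \ Y).card := hsplit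
      _ ≤ D ^ k + 2 ^ t * B / δ * D ^ k := add_le_add h1k hP'
      _ = D ^ (k + 1) := by rw [hD, pow_succ]; ring

/-- The irreducible states have total cost at most `(4 ℓ 2 ^ ℓ + 1) ^ ℓ`. -/
lemma sum_irred_le (hg : ∀ S, 0 ≤ g S) {ℓ : ℕ} (hℓ : 0 < ℓ) (hsupp : ∀ S, g S ≠ 0 → S.card ≤ ℓ)
    {σ : ℝ} (hσ : 0 ≤ σ) :
    ∑ Z ∈ irred g ℓ σ, σ ^ Z.card ≤ (4 * ℓ * 2 ^ ℓ + 1 : ℝ) ^ ℓ := by
  refine (sum_closed_le hg hsupp hσ zero_le_one (δ := 1 / (4 * ℓ)) (by positivity) _
    (fun Z hZ => (mem_filter.1 hZ).2.1) fun Z hZ Y hY => ?_).trans (le_of_eq ?_)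
  · obtain ⟨h1, h2⟩ := (mem_filter.1 hZ).2.2.2 Y hY
    refine ⟨h1, ?_⟩
    have hl := w_le_sum hg hσ hY.subset
    rw [sum_erase_eq_sub (empty_mem_powerset _), A_empty]
    linarith
  · rw [mul_one, div_div_eq_mul_div, div_one]
    ring

/-- Sampling with alteration, with multiplicity of order `ℓ ^ 2`. -/
theorem alter_cover (F : Finset (Finset α)) (g : Finset α → ℝ) {ℓ : ℕ} (n : ℕ)
    (hg : ∀ S, 0 ≤ g S) (hF : ∀ H ∈ F, H.card ≤ ℓ)
    (hcov : ∀ H ∈ F, 1 ≤ ∑ S ∈ H.powerset, g S)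
    {σ : ℝ} (hσ : 0 ≤ σ) (hlow : w g ∅ σ ≤ 1 / 4) :
    ∃ G : Finset (Finset α), (∀ H ∈ F, ∃ S ∈ G, S ⊆ H) ∧
      ∑ S ∈ G, σ ^ S.card ≤ (8 * (ℓ : ℝ) ^ 2 + 2 * n) * w g ∅ (σ + σ) + (1 / 2) ^ n := by
  classical
  rcases F.eq_empty_or_nonempty with rfl | ⟨H₀, hH₀⟩
  · refine ⟨∅, by simp, ?_⟩
    rw [sum_empty]
    have := w_nonneg hg (U := (∅ : Finset α)) (σ := σ + σ) (by linarith)
    positivity
  set h : Finset α → ℝ := fun S => if S.card ≤ ℓ then g S else 0 with hdef
  have hh : ∀ S, 0 ≤ h S := fun S => by simp only [hdef]; split_ifs <;> simp [hg]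
  have hhℓ : ∀ S, h S ≠ 0 → S.card ≤ ℓ := by
    intro S hS
    simp only [hdef, ne_eq, ite_eq_right_iff, not_forall] at hS
    exact hS.1
  have hle' : ∀ U τ, 0 ≤ τ → w h U τ ≤ w g U τ := fun U τ hτ => sum_le_sum fun S _ =>
    mul_le_mul_of_nonneg_right (by simp only [hdef]; split_ifs <;> simp [hg]) (pow_nonneg hτ _)
  have hhcov : ∀ H ∈ F, 1 ≤ ∑ S ∈ H.powerset, h S := fun H hH => (hcov H hH).trans
    (le_of_eq (sum_congr rfl fun S hS => by
      simp [hdef, (card_le_card (mem_powerset.1 hS)).trans (hF H hH)]))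
  have hℓ : 0 < ℓ := by
    by_contra hc
    have h1 := (hhcov H₀ hH₀).trans (w_ge_powerset hh H₀ hσ)
    have hH0 : H₀ = ∅ := card_eq_zero.1 (by have := hF H₀ hH₀; omega)
    rw [hH0] at h1
    linarith [hle' ∅ σ hσ]
  set M : ℝ := 8 * (ℓ : ℝ) ^ 2 + 2 * n with hM
  have hM0 : 0 ≤ M := by positivity
  set π : Finset α → ℝ := fun R => min 1 (M * A h σ ∅ R) with hπ
  have hπ0 : ∀ R, 0 ≤ π R := fun R => le_min zero_le_one (mul_nonneg hM0 (A_nonneg hh hσ _ _))
  obtain ⟨W, -, hle⟩ := exists_alter ((univ : Finset (Finset α)).erase ∅) (fun R => σ ^ R.card)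
    π (irred h ℓ σ) (fun R Z => R ⊆ Z) hπ0 (fun R => min_le_left _ _) (fun Z => σ ^ Z.card)
  refine ⟨W ∪ (irred h ℓ σ).filter (fun Z => ∀ R ∈ W, ¬ R ⊆ Z), ?_, ?_⟩
  · intro H hH
    obtain ⟨Z, hZ, hZH⟩ := exists_irred hℓ H (hF H hH)
      ((hhcov H hH).trans (w_ge_powerset hh H hσ))
    by_cases hm : ∀ R ∈ W, ¬ R ⊆ Z
    · exact ⟨Z, mem_union_right _ (mem_filter.2 ⟨hZ, hm⟩), hZH⟩
    · push_neg at hm
      obtain ⟨R, hR, hRZ⟩ := hm
      exact ⟨R, mem_union_left _ hR, hRZ.trans hZH⟩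
  have hunion : ∑ S ∈ W ∪ (irred h ℓ σ).filter (fun Z => ∀ R ∈ W, ¬ R ⊆ Z), σ ^ S.card ≤
      ∑ S ∈ W, σ ^ S.card + ∑ Z ∈ (irred h ℓ σ).filter (fun Z => ∀ R ∈ W, ¬ R ⊆ Z),
        σ ^ Z.card := by
    rw [← sum_union_inter]
    exact le_add_of_nonneg_right (sum_nonneg fun _ _ => pow_nonneg hσ _)
  refine hunion.trans ?_
  rw [sum_filter]
  refine le_trans (le_trans (le_of_eq ?_) hle) ?_
  · congr 1
    refine sum_congr rfl fun Z _ => ?_
    congr
  have hfirst : ∑ R ∈ (univ : Finset (Finset α)).erase ∅, π R * σ ^ R.card ≤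
      M * w g ∅ (σ + σ) := by
    have hsum : ∑ R, σ ^ R.card * A h σ ∅ R = w h ∅ (σ + σ) := by
      rw [← sum_powerset_A (g := h) σ σ ∅, compl_empty, powerset_univ]
    calc ∑ R ∈ (univ : Finset (Finset α)).erase ∅, π R * σ ^ R.card
        ≤ ∑ R, π R * σ ^ R.card :=
          sum_le_sum_of_subset_of_nonneg (erase_subset _ _)
            fun R _ _ => mul_nonneg (hπ0 R) (pow_nonneg hσ _)
      _ ≤ ∑ R, M * A h σ ∅ R * σ ^ R.card :=
          sum_le_sum fun R _ => mul_le_mul_of_nonneg_right (min_le_right _ _) (pow_nonneg hσ _)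
      _ = M * w h ∅ (σ + σ) := by rw [← hsum, mul_sum]; exact sum_congr rfl fun R _ => by ring
      _ ≤ _ := mul_le_mul_of_nonneg_left (hle' ∅ _ (by linarith)) hM0
  have hsecond : ∑ Z ∈ irred h ℓ σ, σ ^ Z.card *
      ∏ R ∈ ((univ : Finset (Finset α)).erase ∅).filter (fun R => R ⊆ Z), (1 - π R) ≤
      (1 / 2) ^ n := by
    have hmiss : ∀ Z ∈ irred h ℓ σ,
        ∏ R ∈ ((univ : Finset (Finset α)).erase ∅).filter (fun R => R ⊆ Z), (1 - π R) ≤
          Real.exp (-(M / 2)) := by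
      intro Z hZ
      have hset : ((univ : Finset (Finset α)).erase ∅).filter (fun R => R ⊆ Z) =
          Z.powerset.erase ∅ := by ext R; simp
      rw [hset]
      calc ∏ R ∈ Z.powerset.erase ∅, (1 - π R)
          ≤ ∏ R ∈ Z.powerset.erase ∅, Real.exp (-(M * A h σ ∅ R)) := by
            refine prod_le_prod (fun R _ => sub_nonneg.2 (min_le_left _ _)) fun R _ => ?_
            have h1 := Real.add_one_le_exp (-(M * A h σ ∅ R))
            have h2 := (Real.exp_pos (-(M * A h σ ∅ R))).le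
            rcases le_total 1 (M * A h σ ∅ R) with hc | hc
            · simp only [hπ, min_eq_left hc]; linarith
            · simp only [hπ, min_eq_right hc]; linarith
        _ ≤ _ := by
            rw [← Real.exp_sum, Real.exp_le_exp, sum_neg_distrib, neg_le_neg_iff, ← mul_sum]
            have h3 := w_le_sum hh hσ (empty_subset Z)
            rw [sdiff_empty] at h3
            have h4 : (3 : ℝ) / 4 ≤ w h Z σ := (mem_filter.1 hZ).2.2.1
            have h5 : w h ∅ σ ≤ 1 / 4 := (hle' ∅ σ hσ).trans hlow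
            rw [sum_erase_eq_sub (empty_mem_powerset _), A_empty]
            nlinarith
    calc _ ≤ ∑ Z ∈ irred h ℓ σ, σ ^ Z.card * Real.exp (-(M / 2)) :=
          sum_le_sum fun Z hZ => mul_le_mul_of_nonneg_left (hmiss Z hZ) (pow_nonneg hσ _)
      _ = (∑ Z ∈ irred h ℓ σ, σ ^ Z.card) * Real.exp (-(M / 2)) := by rw [sum_mul]
      _ ≤ Real.exp (4 * (ℓ : ℝ) ^ 2) * Real.exp (-(M / 2)) := by
          refine mul_le_mul_of_nonneg_right
            ((sum_irred_le hh hℓ hhℓ hσ).trans ?_) (Real.exp_pos _).le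
          have he : (32 : ℝ) ≤ Real.exp 4 := by
            have h2 : (2.7 : ℝ) ≤ Real.exp 1 := by linarith [Real.exp_one_gt_d9]
            rw [show (4 : ℝ) = (4 : ℕ) * 1 by norm_num, Real.exp_nat_mul]
            calc (32 : ℝ) ≤ 2.7 ^ 4 := by norm_num
              _ ≤ _ := pow_le_pow_left₀ (by norm_num) h2 4
          have hl2 : (ℓ : ℝ) ≤ 2 ^ ℓ := by exact_mod_cast (Nat.lt_two_pow_self (n := ℓ)).le
          have hl1 : (1 : ℝ) ≤ ℓ := by exact_mod_cast hℓ
          have hb : (4 * ℓ * 2 ^ ℓ + 1 : ℝ) ≤ Real.exp 4 ^ ℓ := by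
            calc (4 * ℓ * 2 ^ ℓ + 1 : ℝ) ≤ 5 * (2 ^ ℓ * 2 ^ ℓ) := by
                  have hpp : (1 : ℝ) ≤ 2 ^ ℓ := one_le_pow₀ (by norm_num)
                  nlinarith
              _ ≤ 8 ^ ℓ * (2 ^ ℓ * 2 ^ ℓ) := by
                  refine mul_le_mul_of_nonneg_right ?_ (by positivity)
                  calc (5 : ℝ) ≤ 8 ^ 1 := by norm_num
                    _ ≤ _ := pow_le_pow_right₀ (by norm_num) hℓ
              _ = 32 ^ ℓ := by rw [← mul_pow, ← mul_pow]; norm_num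
              _ ≤ _ := pow_le_pow_left₀ (by norm_num) he ℓ
          calc (4 * ℓ * 2 ^ ℓ + 1 : ℝ) ^ ℓ ≤ (Real.exp 4 ^ ℓ) ^ ℓ :=
                pow_le_pow_left₀ (by positivity) hb ℓ
            _ = Real.exp (4 * (ℓ : ℝ) ^ 2) := by
                rw [← pow_mul, ← Real.exp_nat_mul]; congr 1; push_cast; ring
      _ = Real.exp (-1) ^ n := by
          rw [← Real.exp_add, ← Real.exp_nat_mul]; congr 1; rw [hM]; push_cast; ring
      _ ≤ (1 / 2) ^ n := by
          refine pow_le_pow_left₀ (Real.exp_pos _).le ?_ _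
          have := Real.exp_neg_one_lt_half
          linarith
  linarith

/-- Constant loss when the supports have size at least `log₂ ℓ`. -/
theorem large_cover (F : Finset (Finset α)) (g : Finset α → ℝ) {ℓ s : ℕ} (hs : 0 < s)
    (hℓs : ℓ ≤ 2 ^ s) (hg : ∀ S, 0 ≤ g S) (hsupp : ∀ S, g S ≠ 0 → s ≤ S.card)
    (hF : ∀ H ∈ F, H.card ≤ ℓ) (hcov : ∀ H ∈ F, 1 ≤ ∑ S ∈ H.powerset, g S)
    {p : ℝ} (hp : 0 ≤ p) (hcost : w g ∅ p ≤ 1 / 2) :
    ∃ G : Finset (Finset α), (∀ H ∈ F, ∃ S ∈ G, S ⊆ H) ∧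
      ∑ S ∈ G, (p / 4096) ^ S.card ≤ (1 / 2) ^ s / 8 := by
  set σ : ℝ := p / 4096 with hσdef
  have hσ : 0 ≤ σ := by positivity
  have hsmall : w g ∅ (σ + σ) ≤ (1 / 2048) ^ s * (1 / 2) := by
    rw [show σ + σ = 1 / 2048 * p by rw [hσdef]; ring]
    exact (w_empty_scale hg hsupp hp (by norm_num) (by norm_num)).trans
      (mul_le_mul_of_nonneg_left hcost (by positivity))
  have hlow : w g ∅ σ ≤ 1 / 4 := by
    refine (w_mono hg ∅ hσ (le_add_of_nonneg_right hσ)).trans (hsmall.trans ?_)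
    have : (1 / 2048 : ℝ) ^ s ≤ 1 / 2048 :=
      pow_le_of_le_one (by norm_num) (by norm_num) hs.ne'
    linarith
  obtain ⟨G, hG, hc⟩ := alter_cover F g (s + 5) hg hF hcov hσ hlow
  refine ⟨G, hG, hc.trans ?_⟩
  have hs4 : (s : ℝ) ≤ 4 ^ s := by
    exact_mod_cast (Nat.lt_pow_self (n := s) (by norm_num : 1 < 4)).le
  have hℓ4 : (ℓ : ℝ) ^ 2 ≤ 4 ^ s := by
    have : (ℓ : ℝ) ≤ 2 ^ s := by exact_mod_cast hℓs
    calc (ℓ : ℝ) ^ 2 ≤ ((2 : ℝ) ^ s) ^ 2 := pow_le_pow_left₀ (by positivity) this 2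
      _ = 4 ^ s := by rw [← pow_mul, mul_comm, pow_mul]; norm_num
  have h1 : (1 : ℝ) ≤ 4 ^ s := one_le_pow₀ (by norm_num)
  have hfirst : (8 * (ℓ : ℝ) ^ 2 + 2 * (s + 5 : ℕ)) * w g ∅ (σ + σ) ≤ (1 / 2) ^ s / 16 := by
    calc (8 * (ℓ : ℝ) ^ 2 + 2 * (s + 5 : ℕ)) * w g ∅ (σ + σ)
        ≤ 20 * 4 ^ s * ((1 / 2048) ^ s * (1 / 2)) := by
          refine mul_le_mul ?_ hsmall (w_nonneg hg (by positivity)) (by positivity)
          push_cast
          linarith
      _ = 10 * ((1 / 256) ^ s * (1 / 2) ^ s) := by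
          have : (4 : ℝ) ^ s * (1 / 2048) ^ s = (1 / 256) ^ s * (1 / 2) ^ s := by
            rw [← mul_pow, ← mul_pow]; norm_num
          rw [← this]; ring
      _ ≤ 10 * (1 / 256 * (1 / 2) ^ s) := by
          refine mul_le_mul_of_nonneg_left (mul_le_mul_of_nonneg_right ?_ (by positivity))
            (by norm_num)
          exact pow_le_of_le_one (by norm_num) (by norm_num) hs.ne'
      _ ≤ _ := by
          have : (0 : ℝ) ≤ (1 / 2) ^ s := by positivity
          linarith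
  have hsecond : (1 / 2 : ℝ) ^ (s + 5) ≤ (1 / 2) ^ s / 16 := by
    rw [pow_add]
    have : (0 : ℝ) ≤ (1 / 2) ^ s := by positivity
    norm_num; linarith
  linarith

/-- One loss per iterate of the binary logarithm. -/
lemma iterate_cover (g : Finset α → ℝ) (hg : ∀ S, 0 ≤ g S) {ζ : ℝ} (hζ : 0 < ζ) {top : ℝ}
    (hb : ∀ τ, 0 ≤ τ → τ ≤ top → w g ∅ τ ≤ 1 / 32) :
    ∀ (L ℓ : ℕ) (σ : ℝ) (F : Finset (Finset α)), (Nat.log 2)^[L] ℓ = 0 → 0 ≤ σ →
      σ + L * ζ ≤ top → (∀ U ∈ F, U.card ≤ ℓ ∧ 1 ≤ w g U σ) →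
      ∃ G : Finset (Finset α), (∀ U ∈ F, ∃ S ∈ G, S ⊆ U) ∧
        ∑ S ∈ G, (ζ / 4096) ^ S.card ≤ (1 - (1 / 2) ^ ℓ) / 8 := by
  classical
  have hzero : ∀ (σ : ℝ) (F : Finset (Finset α)), 0 ≤ σ → σ ≤ top →
      (∀ U ∈ F, U.card ≤ 0 ∧ 1 ≤ w g U σ) → ∀ U ∈ F, ∃ S ∈ (∅ : Finset (Finset α)), S ⊆ U := by
    intro σ F hσ htop hF U hU
    obtain ⟨hc, hw⟩ := hF U hU
    rw [card_eq_zero.1 (Nat.le_zero.1 hc)] at hw
    linarith [hb σ hσ htop]
  intro L
  induction L with
  | zero =>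
    intro ℓ σ F hℓ hσ htop hF
    obtain rfl : ℓ = 0 := hℓ
    exact ⟨∅, hzero σ F hσ (by simpa using htop) hF, by simp⟩
  | succ L ih =>
    intro ℓ σ F hℓ hσ htop hF
    push_cast at htop
    have hσt : σ + ζ ≤ top := by nlinarith [hζ, mul_nonneg (Nat.cast_nonneg (α := ℝ) L) hζ.le]
    rcases Nat.eq_zero_or_pos ℓ with rfl | hℓpos
    · exact ⟨∅, hzero σ F hσ (by linarith) hF, by simp⟩
    rw [Function.iterate_succ_apply] at hℓ
    set k := Nat.log 2 ℓ with hk
    have hkℓ : k < ℓ := Nat.log_lt_self 2 hℓpos.ne'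
    set u := k + 1 with hu
    set good : Finset α → Prop := fun U => ∀ Y, Y ⊆ U → Live u Y →
        0 < N g σ ζ Y ∧ N g σ ζ Y ≤ ∑ R ∈ (U \ Y).powerset.erase ∅, A g σ Y R with hgood
    set F' := (univ : Finset (Finset α)).filter fun Y =>
      Y.card ≤ k ∧ 1 ≤ w g Y (σ + ζ) with hF'
    obtain ⟨G₁, hG₁, hc₁⟩ := ih k (σ + ζ) F' hℓ (by linarith) (by linarith)
      (fun U hU => (mem_filter.1 hU).2)
    set g' : Finset α → ℝ := fun V =>
      if V ≠ ∅ ∧ u ≤ V.card then 2 * Q g σ ζ u V else 0 with hg'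
    have hg'0 : ∀ V, 0 ≤ g' V := fun V => by
      simp only [hg']
      split_ifs
      · exact mul_nonneg zero_le_two (Q_nonneg hg hσ hζ.le u V)
      · rfl
    have hg'cost : w g' ∅ ζ ≤ 1 / 2 := by
      have hstop := stop_le hg hσ hζ u
      have htop' := hb (σ + ζ) (by linarith) hσt
      have hw0 := w_nonneg hg (U := (∅ : Finset α)) hσ
      have heq : w g' ∅ ζ = 2 * ∑ V ∈ ((univ : Finset α).powerset.erase ∅).filter
          (fun V => u ≤ V.card), ζ ^ V.card * Q g σ ζ u V := by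
        unfold w
        rw [mul_sum]
        simp only [hg', sdiff_empty, ite_mul, zero_mul]
        rw [← sum_filter]
        refine sum_congr ?_ fun V _ => by ring
        ext V; simp
      rw [heq]
      linarith
    obtain ⟨G₂, hG₂, hc₂⟩ := large_cover (F.filter good) g' (Nat.succ_pos k)
      ((Nat.lt_pow_succ_log_self one_lt_two ℓ).le) hg'0
      (fun V hV => by
        simp only [hg', ne_eq, ite_eq_right_iff, not_forall] at hV
        exact hV.1.2)
      (fun U hU => (hF U (mem_filter.1 hU).1).1)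
      (fun U hU => by
        obtain ⟨hUF, hUg⟩ := mem_filter.1 hU
        have h1 := exists_reached hg hσ hζ.le U hUg
        have h2 := (hF U hUF).2
        have h3 := hb σ hσ (by linarith)
        have heq : ∑ V ∈ U.powerset, g' V =
            2 * ∑ V ∈ (U.powerset.erase ∅).filter (fun V => u ≤ V.card), Q g σ ζ u V := by
          rw [mul_sum]
          simp only [hg']
          rw [← sum_filter]
          refine sum_congr ?_ fun _ _ => rfl
          ext V; simp only [mem_filter, mem_erase]; tauto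
        rw [heq]
        linarith) hζ.le hg'cost
    refine ⟨G₁ ∪ G₂, fun U hU => ?_, ?_⟩
    · by_cases hUg : good U
      · obtain ⟨S, hS, hSU⟩ := hG₂ U (mem_filter.2 ⟨hU, hUg⟩)
        exact ⟨S, mem_union_right _ hS, hSU⟩
      · simp only [hgood, not_forall] at hUg
        obtain ⟨Y, hYU, hlive, hbad⟩ := hUg
        have hmove := w_le_of_fail hg hσ hζ hYU hbad
        obtain ⟨S, hS, hSY⟩ := hG₁ Y (mem_filter.2 ⟨mem_univ _,
          Nat.lt_succ_iff.1 hlive.2, (hF U hU).2.trans hmove⟩)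
        exact ⟨S, mem_union_left _ hS, hSY.trans hYU⟩
    · calc ∑ S ∈ G₁ ∪ G₂, (ζ / 4096) ^ S.card
          ≤ ∑ S ∈ G₁, (ζ / 4096) ^ S.card + ∑ S ∈ G₂, (ζ / 4096) ^ S.card := by
            rw [← sum_union_inter]
            exact le_add_of_nonneg_right (sum_nonneg fun _ _ => by positivity)
        _ ≤ (1 - (1 / 2) ^ k) / 8 + (1 / 2) ^ u / 8 := add_le_add hc₁ hc₂
        _ ≤ (1 - (1 / 2) ^ ℓ) / 8 := by
            have h1 : (1 / 2 : ℝ) ^ ℓ ≤ (1 / 2) ^ u :=
              pow_le_pow_of_le_one (by norm_num) (by norm_num) hkℓ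
            have h2 : (1 / 2 : ℝ) ^ u = (1 / 2) ^ k / 2 := by rw [hu, pow_succ]; ring
            linarith

/-- Every fractional cover rounds with loss `O(L)` once `L` iterates of `log₂` send `ℓ` to `0`. -/
theorem logStar_cover (F : Finset (Finset α)) (g : Finset α → ℝ) (ℓ L : ℕ)
    (hL : (Nat.log 2)^[L] ℓ = 0) (hg : ∀ S, 0 ≤ g S)
    (hmin : ∀ H ∈ F, ∃ H' ∈ F, H' ⊆ H ∧ H'.card ≤ ℓ)
    (hcov : ∀ H ∈ F, 1 ≤ ∑ S ∈ H.powerset, g S)
    (p : ℝ) (hp : 0 ≤ p) (hcost : ∑ S, g S * p ^ S.card ≤ 1 / 2) :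
    ∃ G : Finset (Finset α), (∀ H ∈ F, ∃ S ∈ G, S ⊆ H) ∧
      ∑ S ∈ G, (p / (131072 * L)) ^ S.card ≤ 1 / 2 := by
  classical
  have hempty : g ∅ ≤ 1 / 2 := by
    refine le_trans (le_of_eq ?_) ((single_le_sum (f := fun S => g S * p ^ S.card)
      (fun S _ => mul_nonneg (hg S) (pow_nonneg hp _)) (mem_univ ∅)).trans hcost)
    simp
  have hne : ∀ H ∈ F, H ≠ ∅ := by
    rintro H hH rfl
    have := hcov ∅ hH
    rw [powerset_empty, sum_singleton] at this
    linarith
  rcases Nat.eq_zero_or_pos L with rfl | hLpos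
  · have hF : F = ∅ := by
      by_contra hFne
      obtain ⟨H, hH⟩ := nonempty_iff_ne_empty.2 hFne
      obtain ⟨H', hH', -, hc⟩ := hmin H hH
      obtain rfl : ℓ = 0 := hL
      exact hne H' hH' (card_eq_zero.1 (Nat.le_zero.1 hc))
    exact ⟨∅, by simp [hF], by simp⟩
  rcases hp.lt_or_eq with hp0 | rfl
  swap
  · refine ⟨F, fun H hH => ⟨H, hH, subset_rfl⟩, ?_⟩
    rw [sum_eq_zero]
    · norm_num
    intro H hH
    rw [zero_div]
    exact zero_pow fun hc => hne H hH (card_eq_zero.1 hc)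
  set h : Finset α → ℝ := fun S => if S = ∅ then 0 else 2 * g S with hdef
  have hh : ∀ S, 0 ≤ h S := fun S => by simp only [hdef]; split_ifs <;> simp [hg]
  have hhs : ∀ S, h S ≠ 0 → 1 ≤ S.card := fun S hS => by
    simp only [hdef, ne_eq, ite_eq_left_iff, not_forall] at hS
    exact card_pos.2 (nonempty_iff_ne_empty.2 hS.1)
  have hhalf : w h ∅ (p / 2) ≤ 1 / 2 := by
    refine le_trans (sum_le_sum fun S _ => ?_) hcost
    simp only [hdef, sdiff_empty]
    split_ifs with hS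
    · rw [zero_mul]; exact mul_nonneg (hg S) (pow_nonneg hp _)
    · have hc : 1 ≤ S.card := card_pos.2 (nonempty_iff_ne_empty.2 hS)
      have hpw : (1 / 2 : ℝ) ^ S.card ≤ 1 / 2 :=
        pow_le_of_le_one (by norm_num) (by norm_num) (by omega)
      rw [show p / 2 = 1 / 2 * p by ring, mul_pow]
      calc 2 * g S * ((1 / 2) ^ S.card * p ^ S.card)
          ≤ 2 * g S * (1 / 2 * p ^ S.card) := mul_le_mul_of_nonneg_left
            (mul_le_mul_of_nonneg_right hpw (pow_nonneg hp _)) (by linarith [hg S])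
        _ = _ := by ring
  have hLr : (0 : ℝ) < L := by exact_mod_cast hLpos
  set ζ : ℝ := p / (32 * L) with hζ
  have hb : ∀ τ, 0 ≤ τ → τ ≤ p / 32 → w h ∅ τ ≤ 1 / 32 := fun τ h0 h1 => by
    refine (w_mono hh ∅ h0 h1).trans ?_
    rw [show p / 32 = 1 / 16 * (p / 2) by ring]
    refine (w_empty_scale hh hhs (by positivity) (by norm_num) (by norm_num)).trans ?_
    linarith
  obtain ⟨G, hG, hc⟩ := iterate_cover h hh (ζ := ζ) (by positivity) hb L ℓ 0
    (F.filter fun H => H.card ≤ ℓ) hL le_rfl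
    (le_of_eq (by rw [hζ]; field_simp; ring))
    (fun U hU => by
      obtain ⟨hUF, hUc⟩ := mem_filter.1 hU
      refine ⟨hUc, le_trans ?_ (w_ge_powerset hh U le_rfl)⟩
      have h1 := hcov U hUF
      rw [← add_sum_erase _ _ (empty_mem_powerset U)] at h1
      have h2 : ∑ S ∈ U.powerset, h S = 2 * ∑ S ∈ U.powerset.erase ∅, g S := by
        rw [← add_sum_erase _ _ (empty_mem_powerset U), mul_sum]
        have h0 : h ∅ = 0 := by simp [hdef]
        rw [h0, zero_add]
        exact sum_congr rfl fun S hS => by simp [hdef, (mem_erase.1 hS).1]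
      linarith)
  refine ⟨G, fun H hH => ?_, ?_⟩
  · obtain ⟨H', hH', hsub, hcard⟩ := hmin H hH
    obtain ⟨S, hS, hSH⟩ := hG H' (mem_filter.2 ⟨hH', hcard⟩)
    exact ⟨S, hS, hSH.trans hsub⟩
  · have heq : p / (131072 * L) = ζ / 4096 := by rw [hζ]; field_simp; ring
    rw [heq]
    have : (0 : ℝ) ≤ (1 / 2) ^ ℓ := by positivity
    linarith

end Vale.Agent.P034
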