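import Mathlib

/-!
The tower of sizes used by the levels of the rounding argument, and the arithmetic about it.
-/

namespace Vale.Agent.P034

/-- Size bound of level `k` for supports of size about `s`: a tower over `2 ^ (20 * s)`. -/
def tower (s : ℕ) : ℕ → ℕ
  | 0 => 2 ^ (20 * s)
  | k + 1 => 2 ^ (8 * tower s k)

lemma tower_step {n : ℕ} (hn : 2 ≤ n) : 2 * n ≤ 2 ^ (8 * n) := by
  calc 2 * n ≤ 2 * 2 ^ n := by have := (Nat.lt_two_pow_self (n := n)).le; omega
    _ = 2 ^ (n + 1) := by ring
    _ ≤ _ := Nat.pow_le_pow_right (by norm_num) (by omega)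

lemma tower_big {s : ℕ} (hs : 0 < s) : ∀ k, 2 ^ (20 * s) * 2 ^ k ≤ tower s k
  | 0 => by simp [tower]
  | k + 1 => by
    have ih := tower_big hs k
    have h2 : 2 ≤ tower s k := by
      refine le_trans ?_ ih
      calc 2 = 2 ^ 1 * 1 := by norm_num
        _ ≤ _ := Nat.mul_le_mul (Nat.pow_le_pow_right (by norm_num) (by omega))
            (Nat.one_le_two_pow)
    calc 2 ^ (20 * s) * 2 ^ (k + 1) = 2 * (2 ^ (20 * s) * 2 ^ k) := by ring
      _ ≤ 2 * tower s k := Nat.mul_le_mul_left _ ih
      _ ≤ _ := by rw [tower]; exact tower_step h2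

lemma tower_huge {s : ℕ} (hs : 0 < s) (k : ℕ) :
    200 * (s * s * (k + 1)) ≤ tower s k := by
  refine le_trans ?_ (tower_big hs k)
  have h1 : 200 * (s * s) ≤ 2 ^ (20 * s) := by
    have h2 : s ≤ 2 ^ s := (Nat.lt_two_pow_self).le
    calc 200 * (s * s) ≤ 2 ^ (8 * s) * (2 ^ s * 2 ^ s) := by
          refine Nat.mul_le_mul ?_ (Nat.mul_le_mul h2 h2)
          calc 200 ≤ 2 ^ (8 * 1) := by norm_num
            _ ≤ _ := Nat.pow_le_pow_right (by norm_num) (by omega)
      _ = 2 ^ (10 * s) := by rw [← pow_add, ← pow_add]; ring_nf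
      _ ≤ _ := Nat.pow_le_pow_right (by norm_num) (by omega)
  calc 200 * (s * s * (k + 1)) = 200 * (s * s) * (k + 1) := by ring
    _ ≤ _ := Nat.mul_le_mul h1 (Nat.lt_two_pow_self (n := k))

lemma tower_mono {s : ℕ} (hs : 0 < s) : Monotone (tower s) := by
  refine monotone_nat_of_le_succ fun k => ?_
  have h2 : 2 ≤ tower s k := le_trans (by nlinarith) (tower_huge hs k)
  exact le_trans (by omega) (le_of_le_of_eq (tower_step h2) rfl)

/-- Enough iterates of the binary logarithm send `n` to zero. -/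
lemma iterate_log_of_le : ∀ n m : ℕ, m ≤ n → (Nat.log 2)^[n] m = 0
  | 0, m, h => by simpa using h
  | n + 1, m, h => by
    rw [Function.iterate_succ_apply]
    refine iterate_log_of_le n _ ?_
    rcases Nat.eq_zero_or_pos m with rfl | hm
    · simp
    · have := Nat.log_lt_self 2 hm.ne'
      omega

/-- Number of iterates of the binary logarithm that send `tower s k` to zero. -/
def steps (s k : ℕ) : ℕ := tower s 0 + 2 * k

lemma iterate_log_tower {s : ℕ} (hs : 0 < s) :
    ∀ k, (Nat.log 2)^[steps s k] (tower s k) = 0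
  | 0 => iterate_log_of_le _ _ (by simp [steps])
  | k + 1 => by
    have ih := iterate_log_tower hs k
    have h : steps s (k + 1) = steps s k + 1 + 1 := by simp [steps]; ring
    rw [h, Function.iterate_succ_apply, Function.iterate_succ_apply]
    have h1 : Nat.log 2 (tower s (k + 1)) = 8 * tower s k := by
      rw [tower]; exact Nat.log_pow one_lt_two _
    have h6 : 6 ≤ tower s k := le_trans (by nlinarith) (tower_huge hs k)
    have h2 : Nat.log 2 (8 * tower s k) ≤ tower s k := by
      refine (Nat.log_mono_right (b := 2) (m := 2 ^ tower s k) ?_).trans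
        (le_of_eq (Nat.log_pow one_lt_two _))
      generalize tower s k = n at h6
      induction n, h6 using Nat.le_induction with
      | base => norm_num
      | succ n hn ih => rw [pow_succ]; omega
    rw [h1]
    have h3 := (Monotone.iterate (f := Nat.log 2)
      (fun a b hab => Nat.log_mono_right hab) (steps s k)) h2
    omega

/-- Exponent of the regularity threshold used between levels `k` and `k + 2`. -/
def expo (s k : ℕ) : ℕ := (22 * s + 4 * k + 20) * (2 * s)

lemma expo_le {s : ℕ} (hs : 0 < s) (k : ℕ) :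
    expo s k + 3 * s + 4 * k + 20 ≤ tower s k := by
  refine le_trans ?_ (tower_huge hs k)
  unfold expo
  have h1 : 1 ≤ s := hs
  have h2 : s ≤ s * s := Nat.le_mul_self s
  nlinarith [Nat.zero_le (s * s * k), Nat.mul_le_mul_right k (le_trans h1 h2)]

/-- The quantity controlling the sampling for irregular states fits below `2 ^ expo`. -/
lemma steps_mul_le (s k : ℕ) :
    steps s (k + 2) * 2 ^ (s + k + 5) ≤ 2 ^ (22 * s + 4 * k + 20) := by
  have h : steps s (k + 2) ≤ 2 ^ (20 * s + 3 * k + 6) := by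
    have hk : k + 2 ≤ 2 ^ (k + 2) := (Nat.lt_two_pow_self).le
    have e : 2 ^ (20 * s + 3 * k + 6) = 2 ^ (20 * s) * 2 ^ (3 * k + 6) := by
      rw [← pow_add]; ring_nf
    rw [steps, tower, e]
    have h1 : 1 ≤ 2 ^ (20 * s) := Nat.one_le_two_pow
    have h2 : 1 + 2 * (k + 2) ≤ 2 ^ (3 * k + 6) := by
      calc 1 + 2 * (k + 2) ≤ 4 * 2 ^ (k + 2) := by omega
        _ = 2 ^ (k + 4) := by ring
        _ ≤ _ := Nat.pow_le_pow_right (by norm_num) (by omega)
    calc 2 ^ (20 * s) + 2 * (k + 2) ≤ 2 ^ (20 * s) * (1 + 2 * (k + 2)) := by nlinarith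
      _ ≤ _ := Nat.mul_le_mul_left _ h2
  calc steps s (k + 2) * 2 ^ (s + k + 5)
      ≤ 2 ^ (20 * s + 3 * k + 6) * 2 ^ (s + k + 5) := Nat.mul_le_mul_right _ h
    _ = 2 ^ (21 * s + 4 * k + 11) := by rw [← pow_add]; ring_nf
    _ ≤ _ := Nat.pow_le_pow_right (by norm_num) (by omega)

end Vale.Agent.P034
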