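import Mathlib
import Vale.Agent.P034.Alteration

/-!
The walk inside good states, with the integral cover it yields.
-/

open Finset

namespace Vale.Agent.P034

variable {α : Type*} [Fintype α] [DecidableEq α]

/-- Summing over a union of families costs at most the sum of the sums. -/
lemma sum_biUnion_le_sum {ι β : Type*} [DecidableEq β] (s : Finset ι) (t : ι → Finset β)
    (f : β → ℝ) (hf : ∀ b, 0 ≤ f b) :
    ∑ b ∈ s.biUnion t, f b ≤ ∑ i ∈ s, ∑ b ∈ t i, f b := by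
  classical
  induction s using Finset.induction with
  | empty => simp
  | @insert a s ha ih =>
    rw [biUnion_insert, sum_insert ha]
    refine le_trans ?_ (add_le_add le_rfl ih)
    rw [← sum_union_inter]
    exact le_add_of_nonneg_right (sum_nonneg fun b _ => hf b)

lemma sum_union_le_add {β : Type*} [DecidableEq β] (s t : Finset β) (f : β → ℝ)
    (hf : ∀ b, 0 ≤ f b) : ∑ b ∈ s ∪ t, f b ≤ ∑ b ∈ s, f b + ∑ b ∈ t, f b := by
  rw [← sum_union_inter]
  exact le_add_of_nonneg_right (sum_nonneg fun b _ => hf b)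

/-- States of size at most `2 ^ (16 u)` from which no set of size below `u` explains the weight
have a cover of cost at most `2 ^ (-u)` at `ζ / 2 ^ 50`. -/
theorem walk_cover (F : Finset (Finset α)) (h : Finset α → ℝ) (hh : ∀ S, 0 ≤ h S) {u : ℕ}
    (hu : 0 < u) {σ₀ ζ θ : ℝ} (hσ₀ : 0 ≤ σ₀) (hζ : 0 < ζ) (hθ : θ ≤ 1)
    (hcard : ∀ U ∈ F, U.card ≤ 2 ^ (16 * u)) (hw : ∀ U ∈ F, θ ≤ w h U σ₀)
    (hgood : ∀ U ∈ F, ∀ Y, Y ⊆ U → Y.card < u → w h Y (σ₀ + ζ) < θ - (1 / 2) ^ u) :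
    ∃ G : Finset (Finset α), (∀ U ∈ F, ∃ S ∈ G, S ⊆ U) ∧
      ∑ S ∈ G, (ζ / 2 ^ 50) ^ S.card ≤ (1 / 2) ^ u := by
  classical
  rcases F.eq_empty_or_nonempty with rfl | ⟨U₀, hU₀⟩
  · exact ⟨∅, by simp, by rw [sum_empty]; positivity⟩
  set δ : ℝ := (1 / 2) ^ u with hδ
  have hδ0 : 0 < δ := by positivity
  have hbase : w h ∅ (σ₀ + ζ) < θ - δ :=
    hgood U₀ hU₀ ∅ (empty_subset _) (by simpa using hu)
  set g' : Finset α → ℝ := fun V =>
    if V ≠ ∅ ∧ u ≤ V.card then 2 ^ u * Q h σ₀ ζ u V else 0 with hg'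
  have hg'0 : ∀ V, 0 ≤ g' V := fun V => by
    simp only [hg']
    split_ifs
    · exact mul_nonneg (by positivity) (Q_nonneg hh hσ₀ hζ.le u V)
    · rfl
  have hg'supp : ∀ V, g' V ≠ 0 → u ≤ V.card := fun V hV => by
    simp only [hg', ne_eq, ite_eq_right_iff, not_forall] at hV
    exact hV.1.2
  have hg'ζ : w g' ∅ ζ ≤ 2 ^ u := by
    have heq : w g' ∅ ζ = 2 ^ u * ∑ V ∈ ((univ : Finset α).powerset.erase ∅).filter
        (fun V => u ≤ V.card), ζ ^ V.card * Q h σ₀ ζ u V := by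
      unfold w
      rw [mul_sum]
      simp only [hg', sdiff_empty, ite_mul, zero_mul]
      rw [← sum_filter]
      refine sum_congr ?_ fun V _ => by ring
      ext V; simp
    rw [heq]
    refine mul_le_of_le_one_right (by positivity) ((stop_le hh hσ₀ hζ u).trans ?_)
    have := w_nonneg hh (U := (∅ : Finset α)) hσ₀
    linarith
  have hcov : ∀ U ∈ F, 1 ≤ ∑ V ∈ U.powerset, g' V := by
    intro U hU
    have hg : ∀ Y, Y ⊆ U → Live u Y →
        0 < N h σ₀ ζ Y ∧ N h σ₀ ζ Y ≤ ∑ R ∈ (U \ Y).powerset.erase ∅, A h σ₀ Y R := by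
      intro Y hYU hl
      by_contra hc
      have := w_le_of_fail hh hσ₀ hζ hYU hc
      linarith [hw U hU, hgood U hU Y hYU hl.2]
    have h1 := exists_reached hh hσ₀ hζ.le U hg
    have h2 := w_mono hh ∅ hσ₀ (le_add_of_nonneg_right hζ.le)
    have heq : ∑ V ∈ U.powerset, g' V =
        2 ^ u * ∑ V ∈ (U.powerset.erase ∅).filter (fun V => u ≤ V.card), Q h σ₀ ζ u V := by
      rw [mul_sum]
      simp only [hg']
      rw [← sum_filter]
      refine sum_congr ?_ fun _ _ => rfl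
      ext V; simp only [mem_filter, mem_erase]; tauto
    rw [heq]
    calc (1 : ℝ) = 2 ^ u * δ := by rw [hδ, ← mul_pow]; norm_num
      _ ≤ _ := mul_le_mul_of_nonneg_left (by linarith [hw U hU]) (by positivity)
  set σ : ℝ := ζ / 2 ^ 50 with hσdef
  have hσ : 0 ≤ σ := by positivity
  have hscale : w g' ∅ (σ + σ) ≤ (1 / 2 ^ 49) ^ u * 2 ^ u := by
    rw [show σ + σ = 1 / 2 ^ 49 * ζ by rw [hσdef]; ring]
    exact (w_empty_scale hg'0 hg'supp hζ.le (by norm_num) (by norm_num)).trans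
      (mul_le_mul_of_nonneg_left hg'ζ (by positivity))
  have hlow : w g' ∅ σ ≤ 1 / 4 := by
    refine (w_mono hg'0 ∅ hσ (le_add_of_nonneg_right hσ)).trans (hscale.trans ?_)
    rw [← mul_pow]
    exact (pow_le_of_le_one (by norm_num) (by norm_num) hu.ne').trans (by norm_num)
  obtain ⟨G, hG, hc⟩ := alter_cover F g' (2 * u) hg'0 hcard hcov hσ hlow
  refine ⟨G, hG, hc.trans ?_⟩
  have hu' : (u : ℝ) ≤ (2 ^ 32) ^ u := by
    exact_mod_cast (Nat.lt_pow_self (n := u) (by norm_num : 1 < 2 ^ 32)).le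
  have hM : 8 * ((2 ^ (16 * u) : ℕ) : ℝ) ^ 2 + 2 * ((2 * u : ℕ) : ℝ) ≤ 12 * (2 ^ 32) ^ u := by
    have he : ((2 ^ (16 * u) : ℕ) : ℝ) ^ 2 = (2 ^ 32) ^ u := by
      push_cast
      rw [← pow_mul, ← pow_mul]; ring_nf
    rw [he]; push_cast; linarith
  calc (8 * ((2 ^ (16 * u) : ℕ) : ℝ) ^ 2 + 2 * ((2 * u : ℕ) : ℝ)) * w g' ∅ (σ + σ)
        + (1 / 2) ^ (2 * u)
      ≤ 12 * (2 ^ 32) ^ u * ((1 / 2 ^ 49) ^ u * 2 ^ u) + (1 / 2) ^ (2 * u) :=
        add_le_add (mul_le_mul hM hscale (w_nonneg hg'0 (by positivity)) (by positivity)) le_rfl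
    _ = 12 * (1 / 2 ^ 16) ^ u + (1 / 4) ^ u := by
        rw [mul_assoc, ← mul_pow, ← mul_pow, pow_mul]; norm_num
    _ ≤ (1 / 2) * (1 / 2) ^ u + (1 / 2) * (1 / 2) ^ u := by
        have e1 : (1 / 2 ^ 16 : ℝ) ^ u = (1 / 2 ^ 15) ^ u * (1 / 2) ^ u := by
          rw [← mul_pow]; norm_num
        have e2 : (1 / 4 : ℝ) ^ u = (1 / 2) ^ u * (1 / 2) ^ u := by
          rw [← mul_pow]; norm_num
        rw [e1, e2, ← mul_assoc]
        refine add_le_add (mul_le_mul_of_nonneg_right ?_ (by positivity))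
          (mul_le_mul_of_nonneg_right ?_ (by positivity))
        · have := pow_le_of_le_one (by norm_num : (0 : ℝ) ≤ 1 / 2 ^ 15) (by norm_num) hu.ne'
          linarith
        · exact pow_le_of_le_one (by norm_num) (by norm_num) hu.ne'
    _ = _ := by ring

end Vale.Agent.P034
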