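import Mathlib
import Vale.Agent.P034.Sizes
import Vale.Agent.P034.Walk

/-!
The levels of the rounding argument.

For a set `S` of the fractional cover, `core k S` is the union of its fragments of conditional
weight at least `4 ^ (- tower k)`.  A state of level `k` has size at most `tower (k + 1)`; in it
the part of `S` outside `core (k + 1) S` is random at density `2 σ`, the part in between is
random at density `σ` or present, and `core k S` is present.  Stepping down one level only turns
light elements into random ones, so that no density ever accumulates.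
-/

open Finset

namespace Vale.Agent.P034

variable {α : Type*} [Fintype α] [DecidableEq α]

/-- Threshold of level `k`. -/
noncomputable def tau (s k : ℕ) : ℝ := (1 / 4) ^ tower s k

/-- Conditional weight of a fragment. -/
noncomputable def frag (g : Finset α → ℝ) (σ : ℝ) (F : Finset α) : ℝ := A g (2 * σ) ∅ F

/-- Union of the fragments of `S` that are heavy at level `k`. -/
noncomputable def core (g : Finset α → ℝ) (σ : ℝ) (s J k : ℕ) (S : Finset α) : Finset α :=
  if J ≤ k then S else S.filter fun x => ∃ F ∈ S.powerset, x ∈ F ∧ tau s k ≤ frag g σ F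

/-- Contribution of `S` to the level `k` weight of `T`. -/
noncomputable def term (g : Finset α → ℝ) (σ : ℝ) (s J k : ℕ) (S T : Finset α) : ℝ :=
  if core g σ s J k S ⊆ T ∧ T ⊆ core g σ s J (k + 1) S then
    g S * (2 * σ) ^ (S \ core g σ s J (k + 1) S).card *
      σ ^ (core g σ s J (k + 1) S \ T).card
  else 0

/-- Level `k` weight inside `W`. -/
noncomputable def Phi (g : Finset α → ℝ) (σ : ℝ) (s J k : ℕ) (W : Finset α) : ℝ :=
  ∑ T ∈ W.powerset, ∑ S, term g σ s J k S T

/-- Heavy part of a state. -/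
noncomputable def kernel (g : Finset α → ℝ) (σ : ℝ) (s k : ℕ) (W : Finset α) : Finset α :=
  W.filter fun x => ∃ F ∈ W.powerset, x ∈ F ∧ tau s k ≤ frag g σ F

/-- Level `k + 1` weight relative to the kernel `P`. -/
noncomputable def rel (g : Finset α → ℝ) (σ : ℝ) (s J k : ℕ) (P R : Finset α) : ℝ :=
  ∑ T ∈ univ.filter (fun T => T \ P = R),
    ∑ S, if core g σ s J k S ⊆ P then term g σ s J (k + 1) S T else 0

variable {g : Finset α → ℝ} {σ : ℝ} {s J k : ℕ}

omit [Fintype α] in
lemma tau_pos : 0 < tau s k := pow_pos (by norm_num) _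

lemma frag_nonneg (hg : ∀ S, 0 ≤ g S) (hσ : 0 ≤ σ) (F : Finset α) : 0 ≤ frag g σ F :=
  A_nonneg hg (by linarith) _ _

lemma core_subset (S : Finset α) : core g σ s J k S ⊆ S := by
  unfold core
  split_ifs
  · rfl
  · exact filter_subset _ _

lemma core_mono (hs : 0 < s) (S : Finset α) :
    core g σ s J k S ⊆ core g σ s J (k + 1) S := by
  by_cases h : J ≤ k + 1
  · rw [show core g σ s J (k + 1) S = S by simp [core, h]]
    exact core_subset S
  · intro x hx
    have hk : ¬ J ≤ k := by omega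
    simp only [core, hk, h, if_false, mem_filter] at hx ⊢
    obtain ⟨hxS, F, hF, hxF, ht⟩ := hx
    exact ⟨hxS, F, hF, hxF, le_trans (pow_le_pow_of_le_one (by norm_num) (by norm_num)
      (tower_mono hs (Nat.le_succ k))) ht⟩

lemma light_of_not_subset (hk : k < J) {S F : Finset α} (hFS : F ⊆ S)
    (hF : ¬ F ⊆ core g σ s J k S) : frag g σ F < tau s k := by
  by_contra hc
  refine hF fun x hx => ?_
  simp only [core, not_le.2 hk, if_false, mem_filter]
  exact ⟨hFS hx, F, mem_powerset.2 hFS, hx, le_of_not_gt hc⟩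

lemma term_nonneg (hg : ∀ S, 0 ≤ g S) (hσ : 0 ≤ σ) (S T : Finset α) :
    0 ≤ term g σ s J k S T := by
  unfold term
  split_ifs
  · exact mul_nonneg (mul_nonneg (hg S) (pow_nonneg (by linarith) _)) (pow_nonneg hσ _)
  · rfl

lemma rel_nonneg (hg : ∀ S, 0 ≤ g S) (hσ : 0 ≤ σ) (P R : Finset α) :
    0 ≤ rel g σ s J k P R := by
  refine sum_nonneg fun T _ => sum_nonneg fun S _ => ?_
  split_ifs
  · exact term_nonneg hg hσ S T
  · rfl

lemma w_empty_frag (τ : ℝ) :
    ∑ F : Finset α, frag g σ F * τ ^ F.card = w g ∅ (2 * σ + τ) := by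
  rw [← sum_powerset_A (g := g) (2 * σ) τ ∅, compl_empty, powerset_univ]
  exact sum_congr rfl fun F _ => mul_comm _ _

lemma w_empty_grow (hg : ∀ S, 0 ≤ g S) {t : ℕ} (ht : ∀ S, g S ≠ 0 → S.card ≤ t) {p c : ℝ}
    (hp : 0 ≤ p) (hc : 1 ≤ c) : w g ∅ (c * p) ≤ c ^ t * w g ∅ p := by
  unfold w
  rw [mul_sum]
  refine sum_le_sum fun S _ => ?_
  by_cases h : g S = 0
  · simp [h]
  rw [sdiff_empty, mul_pow]
  calc g S * (c ^ S.card * p ^ S.card) ≤ g S * (c ^ t * p ^ S.card) :=
        mul_le_mul_of_nonneg_left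
          (mul_le_mul_of_nonneg_right (pow_le_pow_right₀ hc (ht S h)) (pow_nonneg hp _)) (hg S)
    _ = _ := by ring

/-- Irregular states: those with too much fragment weight inside. -/
lemma irregular_cover (hg : ∀ S, 0 ≤ g S) (hs : 0 < s)
    (hsupp : ∀ S, g S ≠ 0 → S.card ≤ 2 * s) {p : ℝ} (hp : 0 ≤ p) (hcost : w g ∅ p ≤ 1 / 2)
    (hσp : σ = p / 2 ^ 60) (F : Finset (Finset α))
    (hcard : ∀ W ∈ F, W.card ≤ tower s (k + 2))
    (hbig : ∀ W ∈ F, 2 ^ expo s k ≤ ∑ D ∈ W.powerset, frag g σ D) :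
    ∃ G : Finset (Finset α), (∀ W ∈ F, ∃ S ∈ G, S ⊆ W) ∧
      ∑ S ∈ G, (σ / 2 ^ 50) ^ S.card ≤ (1 / 2) ^ (s + k + 5) := by
  classical
  have hσ : 0 ≤ σ := by rw [hσp]; positivity
  set B : ℝ := 2 ^ expo s k with hB
  have hB0 : 0 < B := by positivity
  set L := steps s (k + 2) with hL
  set c : ℝ := (L : ℝ) * 2 ^ (s + k + 5) with hc
  have hL1 : (1 : ℝ) ≤ L := by
    have : 1 ≤ tower s 0 := le_trans (by nlinarith) (tower_huge hs 0)
    exact_mod_cast le_trans this (by simp [hL, steps])
  have hc1 : 1 ≤ c := by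
    rw [hc]; exact one_le_mul_of_one_le_of_one_le hL1 (one_le_pow₀ (by norm_num))
  set x : ℝ := σ / 2 ^ 50 * (131072 * L) * 2 ^ (s + k + 5) with hx
  have hx0 : 0 ≤ x := by positivity
  have hcost' : ∑ D : Finset α, frag g σ D / B * x ^ D.card ≤ 1 / 2 := by
    have h1 : w g ∅ (2 * σ + x) ≤ B * (1 / 2) := by
      refine (w_mono hg ∅ (by positivity) (show 2 * σ + x ≤ c * p from ?_)).trans
        ((w_empty_grow hg hsupp hp hc1).trans (mul_le_mul ?_ hcost (w_nonneg hg hp) hB0.le))
      · have e : x = c * p * (131072 / 2 ^ 110) := by rw [hx, hσp, hc]; ring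
        have h2 : σ ≤ c * p / 2 ^ 60 := by
          rw [hσp]
          exact div_le_div_of_nonneg_right (le_mul_of_one_le_left hp hc1) (by positivity)
        have h3 : 0 ≤ c * p := by positivity
        rw [e]
        nlinarith
      · have h4 : c ≤ 2 ^ (22 * s + 4 * k + 20) := by
          rw [hc, hL]; exact_mod_cast steps_mul_le s k
        refine (pow_le_pow_left₀ (by linarith) h4 _).trans (le_of_eq ?_)
        rw [hB, ← pow_mul]; rfl
    calc ∑ D : Finset α, frag g σ D / B * x ^ D.card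
        = (∑ D : Finset α, frag g σ D * x ^ D.card) / B := by
          rw [sum_div]; exact sum_congr rfl fun D _ => by ring
      _ = w g ∅ (2 * σ + x) / B := by rw [w_empty_frag]
      _ ≤ _ := by rw [div_le_iff₀ hB0]; linarith
  obtain ⟨G, hG, hGc⟩ := logStar_cover F (fun D => frag g σ D / B) (tower s (k + 2)) L
    (iterate_log_tower hs _) (fun D => div_nonneg (frag_nonneg hg hσ D) hB0.le)
    (fun W hW => ⟨W, hW, subset_rfl, hcard W hW⟩)
    (fun W hW => by rw [← sum_div, one_le_div hB0]; exact hbig W hW) x hx0 hcost'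
  refine ⟨G, hG, ?_⟩
  have hne : ∀ S ∈ G, 1 ≤ S.card := by
    intro S hS
    refine card_pos.2 (nonempty_iff_ne_empty.2 fun h => ?_)
    have h1 := (single_le_sum (f := fun S : Finset α => (x / (131072 * L)) ^ S.card)
      (fun S _ => pow_nonneg (by positivity) _) hS).trans hGc
    simp [h] at h1
    linarith
  have he : σ / 2 ^ 50 = (1 / 2) ^ (s + k + 5) * (x / (131072 * L)) := by
    have h5 : ((1 : ℝ) / 2) ^ (s + k + 5) * 2 ^ (s + k + 5) = 1 := by
      rw [← mul_pow]; norm_num
    have h6 : x / (131072 * L) = σ / 2 ^ 50 * 2 ^ (s + k + 5) := by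
      rw [hx]; field_simp
    rw [h6, mul_left_comm, h5, mul_one]
  calc ∑ S ∈ G, (σ / 2 ^ 50) ^ S.card
      ≤ ∑ S ∈ G, (1 / 2) ^ (s + k + 5) * (x / (131072 * L)) ^ S.card := by
        refine sum_le_sum fun S hS => ?_
        rw [he, mul_pow]
        exact mul_le_mul_of_nonneg_right (pow_le_of_le_one (by positivity)
          (pow_le_one₀ (by norm_num) (by norm_num)) (by have := hne S hS; omega)) (by positivity)
    _ ≤ (1 / 2) ^ (s + k + 5) * 1 := by
        rw [← mul_sum]
        exact mul_le_mul_of_nonneg_left (hGc.trans (by norm_num)) (by positivity)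
    _ = _ := mul_one _

lemma mem_kernel_of_heavy {W F : Finset α} (hFW : F ⊆ W) (hF : tau s k ≤ frag g σ F) :
    F ⊆ kernel g σ s k W :=
  fun x hx => mem_filter.2 ⟨hFW hx, F, mem_powerset.2 hFW, hx, hF⟩

/-- Whatever contributes inside `W` has its level `k` core inside the kernel of `W`. -/
lemma core_subset_kernel (hk : k < J) (hs : 0 < s) {W S T : Finset α} (hTW : T ⊆ W)
    (hT : term g σ s J (k + 1) S T ≠ 0) : core g σ s J k S ⊆ kernel g σ s k W := by
  simp only [term, ne_eq, ite_eq_right_iff, not_forall] at hT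
  obtain ⟨⟨hT1, -⟩, -⟩ := hT
  intro x hx
  have hx' := hx
  simp only [core, not_le.2 hk, if_false, mem_filter] at hx'
  obtain ⟨-, F, hF, hxF, ht⟩ := hx'
  refine mem_kernel_of_heavy (fun y hy => hTW (hT1 (core_mono hs S ?_))) ht hxF
  simp only [core, not_le.2 hk, if_false, mem_filter]
  exact ⟨mem_powerset.1 hF hy, F, hF, hy, ht⟩

lemma w_rel (P Y : Finset α) (τ : ℝ) :
    w (rel g σ s J k P) Y τ = ∑ T : Finset α,
      (∑ S, if core g σ s J k S ⊆ P then term g σ s J (k + 1) S T else 0) *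
        τ ^ (T \ (P ∪ Y)).card := by
  unfold w rel
  rw [← sum_fiberwise (univ : Finset (Finset α)) (fun T : Finset α => T \ P)
    (fun T => (∑ S, if core g σ s J k S ⊆ P then term g σ s J (k + 1) S T else 0) *
      τ ^ (T \ (P ∪ Y)).card)]
  refine sum_congr rfl fun R _ => ?_
  rw [sum_mul]
  refine sum_congr rfl fun T hT => ?_
  rw [← (mem_filter.1 hT).2, sdiff_sdiff_left]
  rfl

lemma Phi_le_w_rel (hg : ∀ S, 0 ≤ g S) (hσ : 0 ≤ σ) (hs : 0 < s) (hk : k < J) (W : Finset α) :
    Phi g σ s J (k + 1) W ≤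
      w (rel g σ s J k (kernel g σ s k W)) (W \ kernel g σ s k W) 0 := by
  rw [w_rel]
  refine le_trans (le_of_eq ?_) (sum_le_sum_of_subset_of_nonneg (subset_univ W.powerset)
    fun T _ _ => ?_)
  · refine sum_congr rfl fun T hT => ?_
    have he : T \ (kernel g σ s k W ∪ W \ kernel g σ s k W) = ∅ := by
      rw [union_sdiff_of_subset (show kernel g σ s k W ⊆ W from filter_subset _ _),
        sdiff_eq_empty_iff_subset]
      exact mem_powerset.1 hT
    rw [he, card_empty, pow_zero, mul_one]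
    refine sum_congr rfl fun S _ => ?_
    by_cases h : term g σ s J (k + 1) S T = 0
    · simp [h]
    · rw [if_pos (core_subset_kernel hk hs (mem_powerset.1 hT) h)]
  · refine mul_nonneg (sum_nonneg fun S _ => ?_) (pow_nonneg le_rfl _)
    split_ifs
    · exact term_nonneg hg hσ S T
    · rfl

/-- The weight that a step down from level `k + 1` leaves on `Z`, for one set `S`. -/
lemma step_term_le (hg : ∀ S, 0 ≤ g S) (hσ : 0 ≤ σ) (hσ1 : σ ≤ 1) (hs : 0 < s)
    (hk : k + 1 < J) {t : ℕ} {S Z : Finset α} (hS : g S ≠ 0 → S.card ≤ t)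
    (hSZ : core g σ s J k S ⊆ Z) :
    ∑ T : Finset α, term g σ s J (k + 1) S T * σ ^ (T \ Z).card ≤
      ∑ T ∈ Z.powerset, term g σ s J k S T +
      2 ^ t * ∑ F ∈ Z.powerset,
        (if F ⊆ S ∧ frag g σ F < tau s (k + 1) then g S * (2 * σ) ^ (S.card - F.card) else 0) := by
  classical
  have hlight0 : ∀ F : Finset α, 0 ≤
      (if F ⊆ S ∧ frag g σ F < tau s (k + 1) then g S * (2 * σ) ^ (S.card - F.card) else 0) :=
    fun F => by
      split_ifs
      · exact mul_nonneg (hg S) (pow_nonneg (by linarith) _)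
      · rfl
  by_cases hg0 : g S = 0
  · simp [term, hg0]
  set a := core g σ s J (k + 1) S with ha
  set b := core g σ s J (k + 1 + 1) S with hb
  have hab : a ⊆ b := core_mono hs S
  have hbS : b ⊆ S := core_subset S
  have hsum : ∑ T : Finset α, term g σ s J (k + 1) S T * σ ^ (T \ Z).card =
      g S * (2 * σ) ^ (S \ b).card * ∑ T ∈ univ.filter (fun T => a ⊆ T ∧ T ⊆ b),
        σ ^ ((b \ T).card + (T \ Z).card) := by
    rw [mul_sum, sum_filter]
    refine sum_congr rfl fun T _ => ?_
    simp only [term, ← ha, ← hb]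
    split_ifs
    · rw [pow_add]; ring
    · ring
  rw [hsum]
  have hexp : ∀ T, (b \ Z).card ≤ (b \ T).card + (T \ Z).card := fun T =>
    le_trans (card_le_card fun x hx => by
      simp only [mem_sdiff, mem_union] at hx ⊢; tauto) (card_union_le _ _)
  have hpre : 0 ≤ g S * (2 * σ) ^ (S \ b).card :=
    mul_nonneg (hg S) (pow_nonneg (by linarith) _)
  by_cases hcase : b ∩ Z ⊆ a
  · refine le_add_of_le_of_nonneg ?_ (mul_nonneg (by positivity) (sum_nonneg fun F _ => hlight0 F))
    refine le_trans ?_ (single_le_sum (f := fun T => term g σ s J k S T)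
      (fun T _ => term_nonneg hg hσ S T) (mem_powerset.2 (inter_subset_right : a ∩ Z ⊆ Z)))
    have hcond : core g σ s J k S ⊆ a ∩ Z ∧ a ∩ Z ⊆ core g σ s J (k + 1) S :=
      ⟨subset_inter (core_mono hs S) hSZ, inter_subset_left⟩
    have hterm : term g σ s J k S (a ∩ Z) =
        g S * (2 * σ) ^ (S \ a).card * σ ^ (a \ (a ∩ Z)).card := if_pos hcond
    simp only [hterm]
    rw [sdiff_inter_self_left]
    have hbz : (b \ Z).card = (b \ a).card + (a \ Z).card := by
      rw [← card_union_of_disjoint (disjoint_left.2 fun x hx hx' =>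
        (mem_sdiff.1 hx).2 (mem_sdiff.1 hx').1)]
      congr 1
      ext x
      simp only [mem_sdiff, mem_union]
      constructor
      · rintro ⟨h1, h2⟩
        by_cases h : x ∈ a
        · exact Or.inr ⟨h, h2⟩
        · exact Or.inl ⟨h1, h⟩
      · rintro (⟨h1, h2⟩ | ⟨h1, h2⟩)
        · exact ⟨h1, fun hz => h2 (hcase (mem_inter.2 ⟨h1, hz⟩))⟩
        · exact ⟨hab h1, h2⟩
    have hSa : (S \ a).card = (S \ b).card + (b \ a).card := by
      rw [← card_union_of_disjoint (disjoint_left.2 fun x hx hx' =>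
        (mem_sdiff.1 hx).2 (mem_sdiff.1 hx').1)]
      congr 1
      ext x
      simp only [mem_sdiff, mem_union]
      constructor
      · rintro ⟨h1, h2⟩
        by_cases h : x ∈ b
        · exact Or.inr ⟨h, h2⟩
        · exact Or.inl ⟨h1, h⟩
      · rintro (⟨h1, h2⟩ | ⟨h1, h2⟩)
        · exact ⟨h1, fun hz => h2 (hab hz)⟩
        · exact ⟨hbS h1, h2⟩
    calc g S * (2 * σ) ^ (S \ b).card * ∑ T ∈ univ.filter (fun T => a ⊆ T ∧ T ⊆ b),
          σ ^ ((b \ T).card + (T \ Z).card)
        ≤ g S * (2 * σ) ^ (S \ b).card * ∑ T ∈ univ.filter (fun T => a ⊆ T ∧ T ⊆ b),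
          σ ^ (b \ Z).card := mul_le_mul_of_nonneg_left
            (sum_le_sum fun T _ => pow_le_pow_of_le_one hσ hσ1 (hexp T)) hpre
      _ ≤ g S * (2 * σ) ^ (S \ b).card * (2 ^ (b \ a).card * σ ^ (b \ Z).card) := by
          refine mul_le_mul_of_nonneg_left ?_ hpre
          rw [sum_const, nsmul_eq_mul]
          refine mul_le_mul_of_nonneg_right ?_ (pow_nonneg hσ _)
          have hc : (univ.filter (fun T : Finset α => a ⊆ T ∧ T ⊆ b)).card ≤
              (b \ a).powerset.card := by
            refine card_le_card_of_injOn (fun T => T \ a)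
              (fun T hT => mem_powerset.2 (sdiff_subset_sdiff (mem_filter.1 hT).2.2 subset_rfl))
              ?_
            intro T₁ h₁ T₂ h₂ he
            simp only [coe_filter, mem_univ, true_and, Set.mem_setOf_eq] at h₁ h₂
            have := congrArg (fun X => a ∪ X) he
            simpa [union_sdiff_of_subset h₁.1, union_sdiff_of_subset h₂.1] using this
          rw [card_powerset] at hc
          exact_mod_cast hc
      _ = g S * (2 * σ) ^ (S \ a).card * σ ^ (a \ Z).card := by
          rw [hbz, hSa, pow_add, pow_add, mul_pow 2 σ (b \ a).card]; ring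
  · refine le_add_of_nonneg_of_le (sum_nonneg fun T _ => term_nonneg hg hσ S T) ?_
    have hmem : b ∩ Z ∈ Z.powerset := mem_powerset.2 inter_subset_right
    have hFS : b ∩ Z ⊆ S := inter_subset_left.trans hbS
    refine le_trans ?_ (mul_le_mul_of_nonneg_left
      (single_le_sum (fun F _ => hlight0 F) hmem) (by positivity))
    rw [if_pos ⟨hFS, light_of_not_subset hk hFS hcase⟩, ← card_sdiff_of_subset hFS]
    have hSF : (S \ (b ∩ Z)).card = (S \ b).card + (b \ Z).card := by
      rw [← card_union_of_disjoint (disjoint_left.2 fun x hx hx' =>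
        (mem_sdiff.1 hx).2 (mem_sdiff.1 hx').1)]
      congr 1
      ext x
      simp only [mem_sdiff, mem_union, mem_inter, not_and]
      constructor
      · rintro ⟨h1, h2⟩
        by_cases h : x ∈ b
        · exact Or.inr ⟨h, h2 h⟩
        · exact Or.inl ⟨h1, h⟩
      · rintro (⟨h1, h2⟩ | ⟨h1, h2⟩)
        · exact ⟨h1, fun h => absurd h h2⟩
        · exact ⟨hbS h1, fun _ => h2⟩
    have hnum : ((univ.filter (fun T : Finset α => a ⊆ T ∧ T ⊆ b)).card : ℝ) ≤ 2 ^ t := by
      have hc : (univ.filter (fun T : Finset α => a ⊆ T ∧ T ⊆ b)).card ≤ b.powerset.card :=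
        card_le_card fun T hT => mem_powerset.2 (mem_filter.1 hT).2.2
      rw [card_powerset] at hc
      calc ((univ.filter (fun T : Finset α => a ⊆ T ∧ T ⊆ b)).card : ℝ) ≤ 2 ^ b.card := by
            exact_mod_cast hc
        _ ≤ _ := pow_le_pow_right₀ (by norm_num) ((card_le_card hbS).trans (hS hg0))
    calc g S * (2 * σ) ^ (S \ b).card * ∑ T ∈ univ.filter (fun T => a ⊆ T ∧ T ⊆ b),
          σ ^ ((b \ T).card + (T \ Z).card)
        ≤ g S * (2 * σ) ^ (S \ b).card * ∑ T ∈ univ.filter (fun T => a ⊆ T ∧ T ⊆ b),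
          (2 * σ) ^ (b \ Z).card := mul_le_mul_of_nonneg_left
            (sum_le_sum fun T _ => (pow_le_pow_of_le_one hσ hσ1 (hexp T)).trans
              (pow_le_pow_left₀ hσ (by linarith) _)) hpre
      _ ≤ g S * (2 * σ) ^ (S \ b).card * (2 ^ t * (2 * σ) ^ (b \ Z).card) := by
          refine mul_le_mul_of_nonneg_left ?_ hpre
          rw [sum_const, nsmul_eq_mul]
          exact mul_le_mul_of_nonneg_right hnum (pow_nonneg (by linarith) _)
      _ = _ := by rw [hSF, pow_add]; ring

/-- An explained state of level `k + 1` gives a state of level `k`. -/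
lemma w_rel_le (hg : ∀ S, 0 ≤ g S) (hσ : 0 ≤ σ) (hσ1 : σ ≤ 1) (hs : 0 < s) (hk : k + 1 < J)
    {t : ℕ} (hsupp : ∀ S, g S ≠ 0 → S.card ≤ t) (P Y : Finset α) :
    w (rel g σ s J k P) Y σ ≤
      Phi g σ s J k (P ∪ Y) + 2 ^ t * 2 ^ (P ∪ Y).card * tau s (k + 1) := by
  classical
  set Z := P ∪ Y with hZ
  rw [w_rel, ← hZ]
  simp only [sum_mul]
  rw [sum_comm]
  calc ∑ S : Finset α, ∑ T : Finset α,
        (if core g σ s J k S ⊆ P then term g σ s J (k + 1) S T else 0) * σ ^ (T \ Z).card
      ≤ ∑ S : Finset α, (∑ T ∈ Z.powerset, term g σ s J k S T + 2 ^ t * ∑ F ∈ Z.powerset,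
        (if F ⊆ S ∧ frag g σ F < tau s (k + 1) then
          g S * (2 * σ) ^ (S.card - F.card) else 0)) := by
        refine sum_le_sum fun S _ => ?_
        by_cases h : core g σ s J k S ⊆ P
        · simp only [if_pos h]
          exact step_term_le hg hσ hσ1 hs hk (hsupp S) (h.trans subset_union_left)
        · simp only [if_neg h, zero_mul, sum_const_zero]
          refine add_nonneg (sum_nonneg fun T _ => term_nonneg hg hσ S T)
            (mul_nonneg (by positivity) (sum_nonneg fun F _ => ?_))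
          split_ifs
          · exact mul_nonneg (hg S) (pow_nonneg (by linarith) _)
          · rfl
    _ ≤ Phi g σ s J k Z + 2 ^ t * 2 ^ Z.card * tau s (k + 1) := by
        rw [sum_add_distrib, sum_comm, ← mul_sum, mul_assoc]
        refine add_le_add le_rfl (mul_le_mul_of_nonneg_left ?_ (by positivity))
        rw [sum_comm]
        calc ∑ F ∈ Z.powerset, ∑ S : Finset α, (if F ⊆ S ∧ frag g σ F < tau s (k + 1) then
              g S * (2 * σ) ^ (S.card - F.card) else 0)
            ≤ ∑ _F ∈ Z.powerset, tau s (k + 1) := by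
              refine sum_le_sum fun F _ => ?_
              by_cases h : frag g σ F < tau s (k + 1)
              · refine le_trans (le_of_eq ?_) h.le
                rw [sum_congr rfl fun S _ => if_congr (and_iff_left h) rfl rfl]
                simp only [frag, A, sdiff_empty]
              · simp [h, tau_pos.le]
          _ = 2 ^ Z.card * tau s (k + 1) := by simp

/-- One level down. -/
lemma level_step (hg : ∀ S, 0 ≤ g S) (hs : 0 < s)
    (hsupp : ∀ S, g S ≠ 0 → S.card ≤ 2 * s) {p : ℝ} (hp : 0 < p) (hp1 : p ≤ 1)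
    (hcost : w g ∅ p ≤ 1 / 2) (hσp : σ = p / 2 ^ 60) (hk : k + 1 < J) {θ : ℝ} (hθ : θ ≤ 1)
    (F : Finset (Finset α))
    (hF : ∀ W ∈ F, W.card ≤ tower s (k + 2) ∧ θ ≤ Phi g σ s J (k + 1) W) :
    ∃ G : Finset (Finset α),
      (∀ W ∈ F, (∃ S ∈ G, S ⊆ W) ∨ ∃ Z, Z ⊆ W ∧ Z.card ≤ tower s (k + 1) ∧
        θ - (1 / 2) ^ (k + 3) ≤ Phi g σ s J k Z) ∧
      ∑ S ∈ G, (σ / 2 ^ 50) ^ S.card ≤ (1 / 2) ^ (s + k + 4) := by
  classical
  have hσ : 0 < σ := by rw [hσp]; positivity
  have hσ2 : 2 * σ ≤ 1 := by rw [hσp]; linarith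
  set N := tower s k with hN
  set E := expo s k with hE
  have hEN : E + 3 * s + 4 * k + 20 ≤ N := expo_le hs k
  set n := 2 ^ (4 * N) with hn
  set u := 2 ^ (8 * N - 1) with hu
  have htow : tower s (k + 1) = 2 * u := by
    rw [hu, ← pow_succ', show 8 * N - 1 + 1 = 8 * N by omega, hN]; rfl
  have hnu : n ≤ u := Nat.pow_le_pow_right (by norm_num) (by omega)
  have hu0 : 0 < u := Nat.two_pow_pos _
  have hbudget : 4 * N * n + (s + k + 5) ≤ u := by
    have h1 : 5 * N ≤ 2 ^ (4 * N - 1) := by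
      calc 5 * N ≤ 8 * 2 ^ N := by have := (Nat.lt_two_pow_self (n := N)).le; omega
        _ = 2 ^ (N + 3) := by ring
        _ ≤ _ := Nat.pow_le_pow_right (by norm_num) (by omega)
    have h2 : s + k + 5 ≤ N * n := le_trans (by omega) (Nat.le_mul_of_pos_right N (Nat.two_pow_pos _))
    calc 4 * N * n + (s + k + 5) ≤ 5 * N * n := by linarith
      _ ≤ 2 ^ (4 * N - 1) * n := Nat.mul_le_mul_right _ h1
      _ = u := by rw [hn, hu, ← pow_add]; congr 1; omega
  set Freg := F.filter fun W => ∑ D ∈ W.powerset, frag g σ D < 2 ^ E with hFreg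
  obtain ⟨G₁, hG₁, hc₁⟩ := irregular_cover (k := k) hg hs hsupp hp.le hcost hσp
    (F.filter fun W => ¬ ∑ D ∈ W.powerset, frag g σ D < 2 ^ E)
    (fun W hW => (hF W (mem_filter.1 hW).1).1) (fun W hW => le_of_not_gt (mem_filter.1 hW).2)
  set Good : Finset α → Prop := fun W => ∀ Y, Y ⊆ W \ kernel g σ s k W → Y.card < u →
    w (rel g σ s J k (kernel g σ s k W)) Y σ < θ - (1 / 2) ^ u with hGood
  have hwalk : ∀ P : Finset α, ∃ G : Finset (Finset α),
      (∀ U ∈ (Freg.filter fun W => Good W ∧ kernel g σ s k W = P).image (· \ P),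
        ∃ S ∈ G, S ⊆ U) ∧
      ∑ S ∈ G, (σ / 2 ^ 50) ^ S.card ≤ (1 / 2) ^ u := by
    intro P
    refine walk_cover _ (rel g σ s J k P) (fun R => rel_nonneg hg hσ.le P R) hu0 le_rfl hσ hθ
      (fun U hU => ?_) (fun U hU => ?_) (fun U hU Y hY hYu => ?_) <;>
      simp only [mem_image, mem_filter, hFreg] at hU <;>
      obtain ⟨W, ⟨⟨hWF, -⟩, hWg, hWP⟩, rfl⟩ := hU
    · refine (card_le_card sdiff_subset).trans ((hF W hWF).1.trans (le_of_eq ?_))
      rw [show tower s (k + 2) = 2 ^ (8 * tower s (k + 1)) from rfl, htow]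
      ring_nf
    · subst hWP
      exact (hF W hWF).2.trans (Phi_le_w_rel hg hσ.le hs (by omega) W)
    · subst hWP
      rw [zero_add]
      exact hWg Y hY hYu
  choose GP hGP hGPc using hwalk
  set C := (Freg.filter Good).image (kernel g σ s k) with hC
  have hkcard : ∀ W ∈ Freg, (kernel g σ s k W).card ≤ n := by
    intro W hW
    set H := W.powerset.filter fun D => tau s k ≤ frag g σ D with hH
    have h1 : kernel g σ s k W ⊆ H.biUnion id := by
      intro x hx
      obtain ⟨-, D, hD, hxD, ht⟩ := mem_filter.1 hx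
      exact mem_biUnion.2 ⟨D, mem_filter.2 ⟨hD, ht⟩, hxD⟩
    have h2 : (H.card : ℝ) * tau s k ≤ 2 ^ E := by
      calc (H.card : ℝ) * tau s k = ∑ D ∈ H, tau s k := by simp
        _ ≤ ∑ D ∈ H, frag g σ D := sum_le_sum fun D hD => (mem_filter.1 hD).2
        _ ≤ ∑ D ∈ W.powerset, frag g σ D :=
            sum_le_sum_of_subset_of_nonneg (filter_subset _ _)
              fun D _ _ => frag_nonneg hg hσ.le D
        _ ≤ _ := (mem_filter.1 hW).2.le
    have h3 : ∀ D ∈ H, (id D).card ≤ 2 * s := by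
      intro D hD
      by_contra hc
      have h0 : frag g σ D = 0 := by
        refine sum_eq_zero fun S _ => ?_
        split_ifs with hDS
        · by_cases hgS : g S = 0
          · simp [hgS]
          · rw [sdiff_empty] at hDS
            exact absurd ((card_le_card hDS).trans (hsupp S hgS)) hc
        · rfl
      have := (mem_filter.1 hD).2
      rw [h0] at this
      linarith [tau_pos (s := s) (k := k)]
    have h4 : (kernel g σ s k W).card ≤ H.card * (2 * s) :=
      (card_le_card h1).trans (card_biUnion_le.trans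
        ((sum_le_card_nsmul _ _ _ h3).trans (by simp)))
    have h5 : (H.card : ℝ) ≤ 2 ^ (E + 2 * N) := by
      rw [pow_add]
      rw [show tau s k = 1 / 2 ^ (2 * N) by rw [tau, ← hN, pow_mul, ← one_div_pow]; norm_num,
        mul_one_div, div_le_iff₀ (by positivity)] at h2
      exact h2
    have h6 : H.card ≤ 2 ^ (E + 2 * N) := by exact_mod_cast h5
    refine h4.trans ((Nat.mul_le_mul h6 (Nat.lt_two_pow_self (n := 2 * s)).le).trans ?_)
    rw [← pow_add]
    exact Nat.pow_le_pow_right (by norm_num) (by omega)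
  have hcount : ∑ P ∈ C, (2 * σ) ^ P.card ≤ (2 ^ (4 * N)) ^ n := by
    refine (sum_closed_le hg hsupp (by positivity) (B := 2 ^ E) (δ := tau s k) (m := n)
      (by positivity) tau_pos C (fun P hP => ?_) (fun P hP Y hY => ?_)).trans ?_
    · obtain ⟨W, hW, rfl⟩ := mem_image.1 hP
      exact hkcard W (mem_filter.1 hW).1
    · obtain ⟨W, hW, rfl⟩ := mem_image.1 hP
      have hreg := (mem_filter.1 (mem_filter.1 hW).1).2
      have hKW : kernel g σ s k W ⊆ W := filter_subset _ _
      constructor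
      · have h1 := w_le_sum hg (show (0 : ℝ) ≤ 2 * σ by positivity) (empty_subset Y)
        rw [sdiff_empty] at h1
        refine h1.trans (le_trans ?_ hreg.le)
        exact sum_le_sum_of_subset_of_nonneg (powerset_mono.2 (hY.subset.trans hKW))
          fun D _ _ => frag_nonneg hg hσ.le D
      · obtain ⟨x, hx, hxY⟩ := exists_of_ssubset hY
        obtain ⟨-, D, hD, hxD, ht⟩ := mem_filter.1 hx
        have hDK : D ⊆ kernel g σ s k W := mem_kernel_of_heavy (mem_powerset.1 hD) ht
        refine le_trans ?_ (single_le_sum (fun R _ => A_nonneg hg (by positivity) Y R)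
          (a := D \ Y) (mem_erase.2 ⟨ne_empty_of_mem (mem_sdiff.2 ⟨hxD, hxY⟩),
            mem_powerset.2 (sdiff_subset_sdiff hDK subset_rfl)⟩))
        refine ht.trans (sum_le_sum fun S _ => ?_)
        rw [sdiff_empty]
        split_ifs with h1 h2
        · refine mul_le_mul_of_nonneg_left (pow_le_pow_of_le_one (by positivity) hσ2 ?_) (hg S)
          rw [← card_sdiff_of_subset h1, ← card_sdiff_of_subset h2]
          refine card_le_card fun y hy => ?_
          simp only [mem_sdiff] at hy ⊢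
          exact ⟨hy.1.1, fun h => hy.2 ⟨h, hy.1.2⟩⟩
        · exact absurd (sdiff_subset_sdiff h1 subset_rfl) h2
        · exact mul_nonneg (hg S) (pow_nonneg (by positivity) _)
        · rfl
    · refine pow_le_pow_left₀ (add_nonneg (div_nonneg (by positivity) tau_pos.le) zero_le_one)
        ?_ _
      rw [tau, ← hN, one_div_pow, div_div_eq_mul_div, div_one]
      have e4 : (4 : ℝ) ^ N = 2 ^ (2 * N) := by rw [pow_mul]; norm_num
      rw [e4, ← pow_add, ← pow_add]
      calc (2 : ℝ) ^ (2 * s + E + 2 * N) + 1 ≤ 2 ^ (2 * s + E + 2 * N) + 2 ^ (2 * s + E + 2 * N) :=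
            add_le_add le_rfl (one_le_pow₀ (by norm_num))
        _ = 2 ^ (2 * s + E + 2 * N + 1) := by ring
        _ ≤ _ := pow_le_pow_right₀ (by norm_num) (by omega)
  set G₂ := C.biUnion fun P => ((GP P).filter fun V => Disjoint P V).image (P ∪ ·) with hG₂
  refine ⟨G₁ ∪ G₂, fun W hW => ?_, ?_⟩
  · by_cases hreg : ∑ D ∈ W.powerset, frag g σ D < 2 ^ E
    swap
    · obtain ⟨S, hS, hSW⟩ := hG₁ W (mem_filter.2 ⟨hW, hreg⟩)
      exact Or.inl ⟨S, mem_union_left _ hS, hSW⟩
    have hWr : W ∈ Freg := mem_filter.2 ⟨hW, hreg⟩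
    set P := kernel g σ s k W with hP
    have hPW : P ⊆ W := filter_subset _ _
    by_cases hgd : Good W
    · obtain ⟨V, hV, hVU⟩ := hGP P (W \ P)
        (mem_image.2 ⟨W, mem_filter.2 ⟨hWr, hgd, hP.symm⟩, rfl⟩)
      refine Or.inl ⟨P ∪ V, mem_union_right _ (mem_biUnion.2
        ⟨P, mem_image.2 ⟨W, mem_filter.2 ⟨hWr, hgd⟩, hP.symm⟩, mem_image.2 ⟨V, mem_filter.2
          ⟨hV, disjoint_sdiff.mono_right hVU⟩, rfl⟩⟩), union_subset hPW (hVU.trans sdiff_subset)⟩
    · simp only [hGood, not_forall, not_lt] at hgd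
      obtain ⟨Y, hY, hYu, hbad⟩ := hgd
      have hZ : (P ∪ Y).card ≤ tower s (k + 1) := by
        refine (card_union_le _ _).trans ?_
        rw [htow]
        have := hkcard W hWr
        rw [← hP] at this
        omega
      refine Or.inr ⟨P ∪ Y, union_subset hPW (hY.trans sdiff_subset), hZ, ?_⟩
      have h1 := w_rel_le hg hσ.le (by linarith) hs hk hsupp P Y
      have h2 : (2 : ℝ) ^ (2 * s) * 2 ^ (P ∪ Y).card * tau s (k + 1) ≤ (1 / 2) ^ (k + 4) := by
        rw [tau, ← pow_add, htow]
        rw [htow] at hZ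
        have e4 : (1 / 4 : ℝ) ^ (2 * u) = (1 / 2) ^ (2 * (2 * u)) := by
          rw [pow_mul (1 / 2 : ℝ)]; norm_num
        rw [e4]
        have e5 : (2 : ℝ) ^ (2 * s + (P ∪ Y).card) * (1 / 2) ^ (2 * s + (P ∪ Y).card) = 1 := by
          rw [← mul_pow]; norm_num
        have hle : 2 * s + (P ∪ Y).card + (k + 4) ≤ 2 * (2 * u) := by
          have h3 : s + k + 5 ≤ u := le_trans (by omega) hbudget
          omega
        calc (2 : ℝ) ^ (2 * s + (P ∪ Y).card) * (1 / 2) ^ (2 * (2 * u))
            ≤ 2 ^ (2 * s + (P ∪ Y).card) * (1 / 2) ^ (2 * s + (P ∪ Y).card + (k + 4)) :=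
              mul_le_mul_of_nonneg_left
                (pow_le_pow_of_le_one (by norm_num) (by norm_num) hle) (by positivity)
          _ = _ := by rw [pow_add _ _ (k + 4), ← mul_assoc, e5, one_mul]
      have h3 : (1 / 2 : ℝ) ^ u ≤ (1 / 2) ^ (k + 4) :=
        pow_le_pow_of_le_one (by norm_num) (by norm_num) (le_trans (by omega) hbudget)
      have h4 : (1 / 2 : ℝ) ^ (k + 3) = 2 * (1 / 2) ^ (k + 4) := by ring
      rw [← hP] at hbad
      linarith
  · refine (sum_union_le_add _ _ _ fun S => by positivity).trans ?_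
    have h1 : (1 / 2 : ℝ) ^ (s + k + 4) = (1 / 2) ^ (s + k + 5) + (1 / 2) ^ (s + k + 5) := by ring
    rw [h1]
    refine add_le_add hc₁ ?_
    calc ∑ S ∈ G₂, (σ / 2 ^ 50) ^ S.card
        ≤ ∑ P ∈ C, ∑ S ∈ ((GP P).filter fun V => Disjoint P V).image (P ∪ ·),
            (σ / 2 ^ 50) ^ S.card :=
          sum_biUnion_le_sum _ _ _ fun S => by positivity
      _ ≤ ∑ P ∈ C, (2 * σ) ^ P.card * (1 / 2) ^ u := by
          refine sum_le_sum fun P _ => (sum_image_le_of_nonneg fun S _ => by positivity).trans ?_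
          calc ∑ V ∈ (GP P).filter (fun V => Disjoint P V), (σ / 2 ^ 50) ^ (P ∪ V).card
              = (σ / 2 ^ 50) ^ P.card *
                  ∑ V ∈ (GP P).filter (fun V => Disjoint P V), (σ / 2 ^ 50) ^ V.card := by
                rw [mul_sum]
                refine sum_congr rfl fun V hV => ?_
                rw [card_union_of_disjoint (mem_filter.1 hV).2, pow_add]
            _ ≤ (2 * σ) ^ P.card * (1 / 2) ^ u := by
                refine mul_le_mul (pow_le_pow_left₀ (by positivity) ?_ _)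
                  ((sum_le_sum_of_subset_of_nonneg (filter_subset _ _)
                    fun V _ _ => by positivity).trans (hGPc P))
                  (sum_nonneg fun V _ => by positivity) (by positivity)
                linarith
      _ = (∑ P ∈ C, (2 * σ) ^ P.card) * (1 / 2) ^ u := by rw [sum_mul]
      _ ≤ (2 ^ (4 * N)) ^ n * (1 / 2) ^ (4 * N * n + (s + k + 5)) :=
          mul_le_mul hcount (pow_le_pow_of_le_one (by norm_num) (by norm_num) hbudget)
            (by positivity) (by positivity)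
      _ = _ := by
          rw [← pow_mul, pow_add, ← mul_assoc, ← mul_pow]
          norm_num

end Vale.Agent.P034
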