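import Mathlib
import Vale.Agent.P034.Levels

/-!
Rounding a fractional cover to an integral one with a universal loss: the bottom level, the
induction over the levels, and the split of the supports into dyadic ranges of sizes.
-/

open Finset

namespace Vale.Agent.P034

variable {α : Type*} [Fintype α] [DecidableEq α] {g : Finset α → ℝ} {σ : ℝ} {s J : ℕ}

lemma Phi_zero_le (hg : ∀ S, 0 ≤ g S) (hσ : 0 ≤ σ) (hσ2 : 2 * σ ≤ 1) {t : ℕ}
    (hsupp : ∀ S, g S ≠ 0 → S.card ≤ t) (W : Finset α) :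
    Phi g σ s J 0 W ≤ 2 ^ t * w g W (2 * σ) := by
  classical
  unfold Phi w
  rw [sum_comm, mul_sum]
  refine sum_le_sum fun S _ => ?_
  have hpos : 0 ≤ g S * (2 * σ) ^ (S \ W).card :=
    mul_nonneg (hg S) (pow_nonneg (by linarith) _)
  by_cases hS : g S = 0
  · simp [term, hS]
  calc ∑ T ∈ W.powerset, term g σ s J 0 S T
      ≤ ∑ T ∈ W.powerset, (if T ⊆ S then g S * (2 * σ) ^ (S \ W).card else 0) := by
        refine sum_le_sum fun T hT => ?_
        rw [mem_powerset] at hT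
        unfold term
        by_cases hc : core g σ s J 0 S ⊆ T ∧ T ⊆ core g σ s J (0 + 1) S
        · rw [if_pos hc, if_pos (hc.2.trans (core_subset S))]
          calc g S * (2 * σ) ^ (S \ core g σ s J (0 + 1) S).card *
                σ ^ (core g σ s J (0 + 1) S \ T).card
              ≤ g S * (2 * σ) ^ (S \ core g σ s J (0 + 1) S).card *
                (2 * σ) ^ (core g σ s J (0 + 1) S \ T).card :=
                mul_le_mul_of_nonneg_left (pow_le_pow_left₀ hσ (by linarith) _)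
                  (mul_nonneg (hg S) (pow_nonneg (by linarith) _))
            _ ≤ _ := by
                rw [mul_assoc, ← pow_add]
                refine mul_le_mul_of_nonneg_left
                  (pow_le_pow_of_le_one (by linarith) hσ2 ?_) (hg S)
                refine le_trans (card_le_card fun x hx => ?_) (card_union_le _ _)
                simp only [mem_sdiff, mem_union] at hx ⊢
                by_cases h : x ∈ core g σ s J (0 + 1) S
                · exact Or.inr ⟨h, fun h' => hx.2 (hT h')⟩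
                · exact Or.inl ⟨hx.1, h⟩
        · rw [if_neg hc]
          split_ifs
          · exact hpos
          · rfl
    _ ≤ ∑ _T ∈ S.powerset, g S * (2 * σ) ^ (S \ W).card := by
        rw [← sum_filter]
        exact sum_le_sum_of_subset_of_nonneg
          (fun T hT => mem_powerset.2 (mem_filter.1 hT).2) fun _ _ _ => hpos
    _ = 2 ^ S.card * (g S * (2 * σ) ^ (S \ W).card) := by simp
    _ ≤ _ := mul_le_mul_of_nonneg_right (pow_le_pow_right₀ (by norm_num) (hsupp S hS)) hpos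

/-- States of the lowest level. -/
lemma bottom_cover (hg : ∀ S, 0 ≤ g S) (hs : 0 < s)
    (hsupp : ∀ S, g S ≠ 0 → s ≤ S.card ∧ S.card ≤ 2 * s) {p : ℝ} (hp : 0 < p) (hp1 : p ≤ 1)
    (hcost : w g ∅ p ≤ 1 / 2) (hσp : σ = p / 2 ^ 60) (F : Finset (Finset α))
    (hF : ∀ W ∈ F, W.card ≤ tower s 1 ∧ 3 / 4 ≤ Phi g σ s J 0 W) :
    ∃ G : Finset (Finset α), (∀ W ∈ F, ∃ S ∈ G, S ⊆ W) ∧
      ∑ S ∈ G, (σ / 2 ^ 50) ^ S.card ≤ (1 / 2) ^ s / 8 := by
  classical
  have hσ : 0 < σ := by rw [hσp]; positivity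
  have hσ2 : 2 * σ ≤ 1 := by rw [hσp]; linarith
  have h20 : 1 ≤ 20 * s := by omega
  set u := 2 ^ (20 * s - 1) with hu
  have htow : tower s 0 = 2 * u := by
    rw [hu, ← pow_succ', Nat.sub_add_cancel h20]; rfl
  have hus : s + 5 ≤ u := by
    calc s + 5 ≤ 2 ^ (s + 5) := (Nat.lt_two_pow_self).le
      _ ≤ _ := Nat.pow_le_pow_right (by norm_num) (by omega)
  set h : Finset α → ℝ := fun S => 2 ^ (2 * s) * g S with hdef
  have hh : ∀ S, 0 ≤ h S := fun S => mul_nonneg (by positivity) (hg S)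
  have hwh : ∀ (U : Finset α) (τ : ℝ), w h U τ = 2 ^ (2 * s) * w g U τ := by
    intro U τ
    unfold w
    rw [mul_sum]
    exact sum_congr rfl fun S _ => by simp only [hdef]; ring
  set Good : Finset α → Prop := fun W =>
    ∀ Y, Y ⊆ W → Y.card < u → w h Y (2 * σ + σ) < 3 / 4 - (1 / 2) ^ u with hGood
  obtain ⟨G₁, hG₁, hc₁⟩ := walk_cover (F.filter Good) h hh (u := u) (Nat.two_pow_pos _)
    (σ₀ := 2 * σ) (by linarith) hσ (θ := 3 / 4) (by norm_num)
    (fun W hW => by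
      refine (hF W (mem_filter.1 hW).1).1.trans (le_of_eq ?_)
      rw [show tower s 1 = 2 ^ (8 * tower s 0) from rfl, htow]
      ring_nf)
    (fun W hW => by
      rw [hwh]
      exact (hF W (mem_filter.1 hW).1).2.trans
        (Phi_zero_le hg hσ.le hσ2 (fun S hS => (hsupp S hS).2) W))
    (fun W hW => (mem_filter.1 hW).2)
  set Bad := (univ : Finset (Finset α)).filter fun Y =>
    Y.card ≤ 2 ^ (20 * s) ∧ 1 / 4 ≤ w h Y (2 * σ + σ) with hBad
  set g' : Finset α → ℝ := fun R => 4 * A h (2 * σ + σ) ∅ R with hg'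
  have hg'0 : ∀ R, 0 ≤ g' R := fun R => mul_nonneg (by norm_num) (A_nonneg hh (by linarith) _ _)
  have hg'w : ∀ τ : ℝ, w g' ∅ τ = 4 * w h ∅ (2 * σ + σ + τ) := by
    intro τ
    rw [← sum_powerset_A (g := h) (2 * σ + σ) τ ∅, compl_empty, powerset_univ, mul_sum]
    unfold w
    exact sum_congr rfl fun R _ => by simp only [hg', sdiff_empty]; ring
  set q : ℝ := σ / 2 ^ 50 with hq
  have hq0 : 0 ≤ q := by positivity
  have hqσ : q + q ≤ σ := by rw [hq]; linarith
  have hsmall : w g' ∅ (q + q) ≤ 2 * (1 / 2 ^ 56) ^ s := by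
    rw [hg'w, hwh]
    have h1 : w g ∅ (2 * σ + σ + (q + q)) ≤ (1 / 2 ^ 58) ^ s * (1 / 2) := by
      refine (w_mono hg ∅ (by positivity) (show 2 * σ + σ + (q + q) ≤ 1 / 2 ^ 58 * p from ?_)).trans
        ((w_empty_scale hg (fun S hS => (hsupp S hS).1) hp.le (by norm_num) (by norm_num)).trans
          (mul_le_mul_of_nonneg_left hcost (by positivity)))
      rw [show 1 / 2 ^ 58 * p = 4 * σ by rw [hσp]; ring]
      linarith
    calc 4 * (2 ^ (2 * s) * w g ∅ (2 * σ + σ + (q + q)))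
        ≤ 4 * (2 ^ (2 * s) * ((1 / 2 ^ 58) ^ s * (1 / 2))) :=
          mul_le_mul_of_nonneg_left (mul_le_mul_of_nonneg_left h1 (by positivity)) (by norm_num)
      _ = 2 * ((4 : ℝ) ^ s * (1 / 2 ^ 58) ^ s) := by rw [pow_mul]; norm_num; ring
      _ = _ := by rw [← mul_pow]; norm_num
  have hlow : w g' ∅ q ≤ 1 / 4 := by
    refine (w_mono hg'0 ∅ hq0 (le_add_of_nonneg_right hq0)).trans (hsmall.trans ?_)
    have := pow_le_of_le_one (show (0 : ℝ) ≤ 1 / 2 ^ 56 by norm_num) (by norm_num) hs.ne'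
    linarith
  obtain ⟨G₂, hG₂, hc₂⟩ := alter_cover Bad g' (s + 6) hg'0
    (fun Y hY => (mem_filter.1 hY).2.1)
    (fun Y hY => by
      have h1 := w_le_sum hh (show (0 : ℝ) ≤ 2 * σ + σ by positivity) (empty_subset Y)
      rw [sdiff_empty] at h1
      simp only [hg']
      rw [← mul_sum]
      linarith [(mem_filter.1 hY).2.2]) hq0 hlow
  refine ⟨G₁ ∪ G₂, fun W hW => ?_, ?_⟩
  · by_cases hg1 : Good W
    · obtain ⟨S, hS, hSW⟩ := hG₁ W (mem_filter.2 ⟨hW, hg1⟩)
      exact ⟨S, mem_union_left _ hS, hSW⟩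
    · simp only [hGood, not_forall, not_lt] at hg1
      obtain ⟨Y, hY, hYu, hbad⟩ := hg1
      have hd : (1 / 2 : ℝ) ^ u ≤ 1 / 2 :=
        pow_le_of_le_one (by norm_num) (by norm_num) (by omega)
      obtain ⟨S, hS, hSY⟩ := hG₂ Y (mem_filter.2 ⟨mem_univ _, by
        have : tower s 0 = 2 ^ (20 * s) := rfl
        omega, by linarith⟩)
      exact ⟨S, mem_union_right _ hS, hSY.trans hY⟩
  · refine (sum_union_le_add _ _ _ fun S => by positivity).trans ?_
    have h1 : (1 / 2 : ℝ) ^ u ≤ (1 / 2) ^ (s + 5) :=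
      pow_le_pow_of_le_one (by norm_num) (by norm_num) hus
    have hM : 8 * ((2 ^ (20 * s) : ℕ) : ℝ) ^ 2 + 2 * ((s + 6 : ℕ) : ℝ) ≤ 22 * (2 ^ 40) ^ s := by
      have he : ((2 ^ (20 * s) : ℕ) : ℝ) ^ 2 = (2 ^ 40) ^ s := by
        push_cast
        rw [← pow_mul, ← pow_mul]; ring_nf
      have h1 : (s : ℝ) ≤ (2 ^ 40) ^ s := by
        exact_mod_cast (Nat.lt_pow_self (n := s) (by norm_num : 1 < 2 ^ 40)).le
      have h2 : (1 : ℝ) ≤ (2 ^ 40) ^ s := one_le_pow₀ (by norm_num)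
      rw [he]; push_cast; linarith
    have h2 : (8 * ((2 ^ (20 * s) : ℕ) : ℝ) ^ 2 + 2 * ((s + 6 : ℕ) : ℝ)) * w g' ∅ (q + q) ≤
        (1 / 2) ^ s / 32 := by
      calc (8 * ((2 ^ (20 * s) : ℕ) : ℝ) ^ 2 + 2 * ((s + 6 : ℕ) : ℝ)) * w g' ∅ (q + q)
          ≤ 22 * (2 ^ 40) ^ s * (2 * (1 / 2 ^ 56) ^ s) :=
            mul_le_mul hM hsmall (w_nonneg hg'0 (by positivity)) (by positivity)
        _ = 44 * ((1 / 2 ^ 15) ^ s * (1 / 2) ^ s) := by
            have e : ((2 : ℝ) ^ 40) ^ s * (1 / 2 ^ 56) ^ s = (1 / 2 ^ 15) ^ s * (1 / 2) ^ s := by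
              rw [← mul_pow, ← mul_pow]; norm_num
            rw [← e]; ring
        _ ≤ 44 * (1 / 2 ^ 15 * (1 / 2) ^ s) := by
            refine mul_le_mul_of_nonneg_left (mul_le_mul_of_nonneg_right ?_ (by positivity))
              (by norm_num)
            exact pow_le_of_le_one (by norm_num) (by norm_num) hs.ne'
        _ ≤ _ := by
            have : (0 : ℝ) ≤ (1 / 2) ^ s := by positivity
            linarith
    have h3 : (1 / 2 : ℝ) ^ (s + 5) = (1 / 2) ^ s / 32 := by rw [pow_add]; norm_num; ring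
    have h4 : (1 / 2 : ℝ) ^ (s + 6) = (1 / 2) ^ s / 64 := by rw [pow_add]; norm_num; ring
    have h5 : (0 : ℝ) ≤ (1 / 2) ^ s := by positivity
    linarith

/-- All levels. -/
lemma level_cover (hg : ∀ S, 0 ≤ g S) (hs : 0 < s)
    (hsupp : ∀ S, g S ≠ 0 → s ≤ S.card ∧ S.card ≤ 2 * s) {p : ℝ} (hp : 0 < p) (hp1 : p ≤ 1)
    (hcost : w g ∅ p ≤ 1 / 2) (hσp : σ = p / 2 ^ 60) :
    ∀ k, k < J → ∀ F : Finset (Finset α),
      (∀ W ∈ F, W.card ≤ tower s (k + 1) ∧ 1 - (1 / 2) ^ (k + 2) ≤ Phi g σ s J k W) →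
      ∃ G : Finset (Finset α), (∀ W ∈ F, ∃ S ∈ G, S ⊆ W) ∧
        ∑ S ∈ G, (σ / 2 ^ 50) ^ S.card ≤ (1 / 2) ^ s / 4 * (1 - (1 / 2) ^ (k + 1)) := by
  classical
  have hσ0 : 0 ≤ σ := by rw [hσp]; positivity
  intro k
  induction k with
  | zero =>
    intro _ F hF
    obtain ⟨G, hG, hc⟩ := bottom_cover (J := J) hg hs hsupp hp hp1 hcost hσp F
      (fun W hW => ⟨(hF W hW).1, le_trans (by norm_num) (hF W hW).2⟩)
    exact ⟨G, hG, hc.trans (le_of_eq (by ring))⟩
  | succ k ih =>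
    intro hk F hF
    have hθ : (1 : ℝ) - (1 / 2) ^ (k + 1 + 2) ≤ 1 := by
      linarith [show (0 : ℝ) ≤ (1 / 2) ^ (k + 1 + 2) by positivity]
    obtain ⟨G₁, hG₁, hc₁⟩ := level_step hg hs (fun S hS => (hsupp S hS).2) hp hp1 hcost hσp hk
      hθ F hF
    obtain ⟨G₂, hG₂, hc₂⟩ := ih (by omega) ((univ : Finset (Finset α)).filter fun Z =>
      Z.card ≤ tower s (k + 1) ∧ 1 - (1 / 2) ^ (k + 2) ≤ Phi g σ s J k Z)
      (fun Z hZ => (mem_filter.1 hZ).2)
    refine ⟨G₁ ∪ G₂, fun W hW => ?_, ?_⟩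
    · rcases hG₁ W hW with ⟨S, hS, hSW⟩ | ⟨Z, hZW, hZc, hZ⟩
      · exact ⟨S, mem_union_left _ hS, hSW⟩
      · obtain ⟨S, hS, hSZ⟩ := hG₂ Z (mem_filter.2 ⟨mem_univ _, hZc, le_trans (le_of_eq (by ring)) hZ⟩)
        exact ⟨S, mem_union_right _ hS, hSZ.trans hZW⟩
    · refine (sum_union_le_add _ _ _ fun S => by positivity).trans ?_
      refine le_trans (add_le_add hc₁ hc₂) (le_of_eq ?_)
      rw [show s + k + 4 = s + (k + 4) by ring, pow_add (1 / 2 : ℝ) s]
      ring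

/-- Fractional covers supported on a dyadic range of sizes. -/
lemma scale_cover (hg : ∀ S, 0 ≤ g S) (hs : 0 < s)
    (hsupp : ∀ S, g S ≠ 0 → s ≤ S.card ∧ S.card ≤ 2 * s) (F : Finset (Finset α))
    (hcov : ∀ H ∈ F, 1 ≤ ∑ S ∈ H.powerset, g S) {p : ℝ} (hp : 0 < p) (hp1 : p ≤ 1)
    (hcost : w g ∅ p ≤ 1 / 2) :
    ∃ G : Finset (Finset α), (∀ H ∈ F, ∃ S ∈ G, S ⊆ H) ∧
      ∑ S ∈ G, (p / 2 ^ 110) ^ S.card ≤ (1 / 2) ^ s / 4 := by
  classical
  set σ : ℝ := p / 2 ^ 60 with hσp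
  have hσ : 0 ≤ σ := by positivity
  set n := Fintype.card α with hn
  obtain ⟨G, hG, hc⟩ := level_cover (J := n + 1) hg hs hsupp hp hp1 hcost hσp n (by omega) F
    (fun H hH => by
      refine ⟨(card_le_univ H).trans ?_, ?_⟩
      · refine le_trans ?_ (tower_big hs (n + 1))
        calc n ≤ 2 ^ n := (Nat.lt_two_pow_self).le
          _ ≤ 2 ^ (20 * s) * 2 ^ (n + 1) := by
              rw [← pow_add]; exact Nat.pow_le_pow_right (by norm_num) (by omega)
      · refine le_trans (le_trans ?_ (hcov H hH)) (sum_le_sum fun S _ => ?_)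
        · linarith [show (0 : ℝ) ≤ (1 / 2) ^ (n + 2) by positivity]
        · refine le_trans (le_of_eq ?_) (single_le_sum (fun S' _ => term_nonneg hg hσ S' S)
            (mem_univ S))
          have hcore : core g σ s (n + 1) (n + 1) S = S := by simp [core]
          simp [term, hcore, core_subset])
  refine ⟨G, hG, ?_⟩
  rw [show p / 2 ^ 110 = σ / 2 ^ 50 by rw [hσp]; ring]
  refine hc.trans ?_
  have : (0 : ℝ) ≤ (1 / 2) ^ s / 4 * (1 / 2) ^ (n + 1) := by positivity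
  linarith

/-- **Rounding theorem.**  A fractional cover of cost at most `1/2` at `p` gives an integral
cover of cost at most `1/2` at `p / 2 ^ 113`. -/
theorem rounding (F : Finset (Finset α)) (g : Finset α → ℝ) (hg : ∀ S, 0 ≤ g S)
    (hcov : ∀ H ∈ F, 1 ≤ ∑ S ∈ H.powerset, g S)
    (p : ℝ) (hp : 0 ≤ p) (hp1 : p ≤ 1) (hcost : ∑ S, g S * p ^ S.card ≤ 1 / 2) :
    ∃ G : Finset (Finset α), (∀ H ∈ F, ∃ S ∈ G, S ⊆ H) ∧
      ∑ S ∈ G, (p / 2 ^ 113) ^ S.card ≤ 1 / 2 := by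
  classical
  have hempty : g ∅ ≤ 1 / 2 := by
    refine le_trans (le_of_eq ?_) ((single_le_sum (f := fun S => g S * p ^ S.card)
      (fun S _ => mul_nonneg (hg S) (pow_nonneg hp _)) (mem_univ ∅)).trans hcost)
    simp
  have hne : ∀ H ∈ F, H ≠ ∅ := by
    rintro H hH rfl
    have := hcov ∅ hH
    rw [powerset_empty, sum_singleton] at this
    linarith
  rcases hp.lt_or_eq with hp0 | rfl
  swap
  · refine ⟨F, fun H hH => ⟨H, hH, subset_rfl⟩, ?_⟩
    rw [sum_eq_zero]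
    · norm_num
    intro H hH
    rw [zero_div]
    exact zero_pow fun hc => hne H hH (card_eq_zero.1 hc)
  set gj : ℕ → Finset α → ℝ := fun j S =>
    if 2 ^ j ≤ S.card ∧ S.card < 2 ^ (j + 1) then 2 ^ (j + 2) * g S else 0 with hgj
  have hgj0 : ∀ j S, 0 ≤ gj j S := fun j S => by
    simp only [hgj]
    split_ifs
    · exact mul_nonneg (by positivity) (hg S)
    · rfl
  have hgjs : ∀ j S, gj j S ≠ 0 → 2 ^ j ≤ S.card ∧ S.card ≤ 2 * 2 ^ j := by
    intro j S hS
    simp only [hgj, ne_eq, ite_eq_right_iff, not_forall] at hS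
    obtain ⟨⟨h1, h2⟩, -⟩ := hS
    rw [pow_succ] at h2
    exact ⟨h1, by omega⟩
  have hcostj : ∀ j, w (gj j) ∅ (p / 8) ≤ 1 / 2 := by
    intro j
    refine le_trans (sum_le_sum fun S _ => ?_) hcost
    simp only [hgj, sdiff_empty]
    split_ifs with hS
    · have h1 : j + 1 ≤ S.card := le_trans (Nat.lt_two_pow_self) hS.1
      have h2 : (2 : ℝ) ^ (j + 2) * (1 / 8) ^ S.card ≤ 1 := by
        have h3 : (2 : ℝ) ^ (j + 2) ≤ 8 ^ S.card := by
          calc (2 : ℝ) ^ (j + 2) ≤ 2 ^ (3 * S.card) :=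
                pow_le_pow_right₀ (by norm_num) (by omega)
            _ = 8 ^ S.card := by rw [pow_mul]; norm_num
        calc (2 : ℝ) ^ (j + 2) * (1 / 8) ^ S.card ≤ 8 ^ S.card * (1 / 8) ^ S.card :=
              mul_le_mul_of_nonneg_right h3 (by positivity)
          _ = 1 := by rw [← mul_pow]; norm_num
      rw [show p / 8 = 1 / 8 * p by ring, mul_pow]
      calc 2 ^ (j + 2) * g S * ((1 / 8) ^ S.card * p ^ S.card)
          = 2 ^ (j + 2) * (1 / 8) ^ S.card * (g S * p ^ S.card) := by ring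
        _ ≤ 1 * (g S * p ^ S.card) :=
            mul_le_mul_of_nonneg_right h2 (mul_nonneg (hg S) (pow_nonneg hp _))
        _ = _ := one_mul _
    · rw [zero_mul]; exact mul_nonneg (hg S) (pow_nonneg hp _)
  choose GJ hGJ hGJc using fun j => scale_cover (g := gj j) (s := 2 ^ j) (hgj0 j)
    (Nat.two_pow_pos j) (hgjs j) (F.filter fun H => 1 ≤ ∑ S ∈ H.powerset, gj j S)
    (fun H hH => (mem_filter.1 hH).2) (p := p / 8) (by positivity) (by linarith) (hcostj j)
  set n := Fintype.card α with hn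
  refine ⟨(range (n + 1)).biUnion GJ, fun H hH => ?_, ?_⟩
  · by_cases hex : ∃ j ∈ range (n + 1), 1 ≤ ∑ S ∈ H.powerset, gj j S
    · obtain ⟨j, hj, hj'⟩ := hex
      obtain ⟨S, hS, hSH⟩ := hGJ j H (mem_filter.2 ⟨hH, hj'⟩)
      exact ⟨S, mem_biUnion.2 ⟨j, hj, hS⟩, hSH⟩
    exfalso
    simp only [not_exists, not_and, not_le] at hex
    have h1 : ∑ S ∈ H.powerset.erase ∅, g S ≤
        ∑ j ∈ range (n + 1), (1 / 2) ^ (j + 2) * ∑ S ∈ H.powerset, gj j S := by
      simp only [mul_sum]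
      rw [sum_comm]
      refine le_trans (sum_le_sum fun S hS => ?_)
        (sum_le_sum_of_subset_of_nonneg (erase_subset _ _) fun S _ _ =>
          sum_nonneg fun j _ => mul_nonneg (by positivity) (hgj0 j S))
      have hc : S.card ≠ 0 := fun h => (mem_erase.1 hS).1 (card_eq_zero.1 h)
      have hjn : Nat.log 2 S.card ∈ range (n + 1) :=
        mem_range.2 (Nat.lt_succ_of_le ((Nat.log_le_self _ _).trans (card_le_univ S)))
      refine le_trans (le_of_eq ?_) (single_le_sum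
        (f := fun j => (1 / 2 : ℝ) ^ (j + 2) * gj j S)
        (fun j _ => mul_nonneg (by positivity) (hgj0 j S)) hjn)
      simp only [hgj, if_pos (And.intro (Nat.pow_log_le_self 2 hc)
        (Nat.lt_pow_succ_log_self one_lt_two S.card))]
      rw [← mul_assoc, ← mul_pow]
      norm_num
    have h2 : ∑ j ∈ range (n + 1), (1 / 2 : ℝ) ^ (j + 2) * ∑ S ∈ H.powerset, gj j S <
        ∑ j ∈ range (n + 1), (1 / 2 : ℝ) ^ (j + 2) * 1 :=
      sum_lt_sum_of_nonempty (by simp) fun j hj =>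
        mul_lt_mul_of_pos_left (hex j hj) (by positivity)
    have h3 : ∑ j ∈ range (n + 1), (1 / 2 : ℝ) ^ (j + 2) * 1 ≤ 1 / 2 := by
      have h4 := sum_geometric_two_le (n + 1)
      calc ∑ j ∈ range (n + 1), (1 / 2 : ℝ) ^ (j + 2) * 1
          = 1 / 4 * ∑ j ∈ range (n + 1), (1 / 2 : ℝ) ^ j := by
            rw [mul_sum]; exact sum_congr rfl fun j _ => by ring
        _ ≤ _ := by linarith
    have h5 := hcov H hH
    rw [← add_sum_erase _ _ (empty_mem_powerset H)] at h5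
    linarith
  · refine (sum_biUnion_le_sum _ _ _ fun S => by positivity).trans ?_
    calc ∑ j ∈ range (n + 1), ∑ S ∈ GJ j, (p / 2 ^ 113) ^ S.card
        ≤ ∑ j ∈ range (n + 1), (1 / 2 : ℝ) ^ j / 4 := by
          refine sum_le_sum fun j _ => ?_
          rw [show p / 2 ^ 113 = p / 8 / 2 ^ 110 by ring]
          refine (hGJc j).trans ?_
          exact div_le_div_of_nonneg_right (pow_le_pow_of_le_one (by norm_num) (by norm_num)
            (Nat.lt_two_pow_self).le) (by norm_num)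
      _ ≤ 1 / 2 := by
          rw [← sum_div]
          linarith [sum_geometric_two_le (n + 1)]

end Vale.Agent.P034
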